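import Mathlib

set_option autoImplicit false

open Finset

namespace Vale.Agent.P054

open scoped Classical in
/-- the set of distances determined by a finite point set -/
noncomputable def distances {d : ℕ} (P : Finset (EuclideanSpace ℝ (Fin d))) : Finset ℝ :=
  P.offDiag.image (fun pq => dist pq.1 pq.2)

/-- strict sign vectors of the affine functions realised on the sphere of radius `r` -/
def Realized {E : Type*} [NormedAddCommGroup E] [InnerProductSpace ℝ E] {J : Type*}
    (r : ℝ) (a : J → E) (c : J → ℝ) : Set (J → Bool) :=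
  {σ | ∃ ω : E, ‖ω‖ = r ∧ ∀ j, 0 < (if σ j then (1:ℝ) else -1) * (inner ℝ (a j) ω + c j)}

/-- dual vector of a pair -/
noncomputable def dualVec {d : ℕ} (π : EuclideanSpace ℝ (Fin d) × EuclideanSpace ℝ (Fin d)) :
    EuclideanSpace ℝ (Fin d) × ℝ :=
  (π.1 - π.2, ‖π.1‖ ^ 2 - ‖π.2‖ ^ 2)

open scoped Classical in
/-- mass of a subspace -/
noncomputable def mass {V ι : Type} [AddCommGroup V] [Module ℝ V] (I : Finset ι) (v : ι → V)
    (A : Submodule ℝ V) : ℝ :=
  ((I.filter (fun i => v i ∈ A)).card : ℝ)

/-- every set in dimension `j` with at most `t` distances has at most `g` points -/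
def BoundedBy (j t : ℕ) (g : ℝ) : Prop :=
  ∀ P : Finset (EuclideanSpace ℝ (Fin j)), (distances P).card ≤ t → (P.card : ℝ) ≤ g

end Vale.Agent.P054
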