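import Mathlib

set_option autoImplicit false

open Finset

namespace Vale.Agent.P054

/-! ### trapezoids of a line arrangement -/

/-- incidence of the point `z` with the line `y = l.1 x + l.2` -/
def Onl (l z : ℝ × ℝ) : Prop := z.2 = l.1 * z.1 + l.2

/-- order of the lines just to the right of abscissa `x` -/
noncomputable def key (x : ℝ) (l : ℝ × ℝ) : ℝ ×ₗ ℝ := toLex (l.1 * x + l.2, l.1)

/-- crossing abscissa -/
noncomputable def xc (c l : ℝ × ℝ) : ℝ := (l.2 - c.2) / (c.1 - l.1)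

theorem xc_symm (c l : ℝ × ℝ) : xc c l = xc l c := by
  unfold xc
  rw [← neg_div_neg_eq, neg_sub, neg_sub]

theorem key_lt {x : ℝ} {c l : ℝ × ℝ} :
    key x c < key x l ↔ c.1 * x + c.2 < l.1 * x + l.2 ∨
      (c.1 * x + c.2 = l.1 * x + l.2 ∧ c.1 < l.1) := by
  unfold key
  rw [Prod.Lex.toLex_lt_toLex]

theorem key_inj {x : ℝ} {c l : ℝ × ℝ} (h : key x c = key x l) : c = l := by
  unfold key at h
  have h2 := toLex.injective h
  rw [Prod.mk.injEq] at h2
  obtain ⟨h3, h4⟩ := h2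
  rw [h4] at h3
  exact Prod.ext h4 (by linarith)

theorem key_lt_iff_of_slope_lt {x : ℝ} {c l : ℝ × ℝ} (h : c.1 < l.1) :
    key x c < key x l ↔ xc c l ≤ x := by
  rw [key_lt]
  have hp : c.1 - l.1 < 0 := by linarith
  have h1 : xc c l ≤ x ↔ x * (c.1 - l.1) ≤ l.2 - c.2 := by
    unfold xc
    rw [div_le_iff_of_neg hp]
  rw [h1]
  constructor
  · rintro (h2 | ⟨h2, _⟩) <;> nlinarith
  · intro h2
    rcases lt_or_eq_of_le h2 with h3 | h3
    · left; nlinarith
    · right; exact ⟨by nlinarith, h⟩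

theorem key_lt_iff_of_slope_gt {x : ℝ} {c l : ℝ × ℝ} (h : l.1 < c.1) :
    key x c < key x l ↔ x < xc c l := by
  rw [key_lt]
  have hp : 0 < c.1 - l.1 := by linarith
  have h1 : x < xc c l ↔ x * (c.1 - l.1) < l.2 - c.2 := by
    unfold xc
    rw [lt_div_iff₀ hp]
  rw [h1]
  constructor
  · rintro (h2 | ⟨_, h2⟩)
    · nlinarith
    · linarith
  · intro h2
    left; nlinarith

theorem noncross {c l : ℝ × ℝ} {x x' : ℝ} (hxx : x ≤ x')
    (h : c.1 ≠ l.1 → ¬ (x < xc c l ∧ xc c l ≤ x')) :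
    key x c < key x l ↔ key x' c < key x' l := by
  rcases lt_trichotomy c.1 l.1 with h1 | h1 | h1
  · rw [key_lt_iff_of_slope_lt h1, key_lt_iff_of_slope_lt h1]
    have h2 := h h1.ne
    constructor
    · intro h3; exact h3.trans hxx
    · intro h3
      by_contra h4
      push Not at h4
      exact h2 ⟨h4, h3⟩
  · rw [key_lt, key_lt, h1]
    simp
  · rw [key_lt_iff_of_slope_gt h1, key_lt_iff_of_slope_gt h1]
    have h2 := h h1.ne'
    constructor
    · intro h3
      by_contra h4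
      push Not at h4
      exact h2 ⟨h3, h4⟩
    · intro h3; exact lt_of_le_of_lt hxx h3

open scoped Classical in
/-- optional maximum -/
noncomputable def omax {α β : Type} [LinearOrder β] (F : Finset α) (k : α → β) : Option α :=
  if h : F.Nonempty then some (Classical.choose (F.exists_max_image k h)) else none

theorem omax_mem {α β : Type} [LinearOrder β] {F : Finset α} {k : α → β} {l : α}
    (h : l ∈ omax F k) : l ∈ F := by
  unfold omax at h
  split_ifs at h with hF
  · rw [Option.mem_some_iff] at h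
    rw [← h]
    exact (Classical.choose_spec (F.exists_max_image k hF)).1
  · simp at h

theorem omax_le {α β : Type} [LinearOrder β] {F : Finset α} {k : α → β} {l : α}
    (h : l ∈ F) : ∃ c ∈ omax F k, k l ≤ k c := by
  unfold omax
  have hF : F.Nonempty := ⟨l, h⟩
  rw [dif_pos hF]
  exact ⟨_, rfl, (Classical.choose_spec (F.exists_max_image k hF)).2 l h⟩

/-- optional minimum -/
noncomputable def omin {α β : Type} [LinearOrder β] (F : Finset α) (k : α → β) : Option α :=
  omax F (fun a => OrderDual.toDual (k a))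

theorem omin_mem {α β : Type} [LinearOrder β] {F : Finset α} {k : α → β} {l : α}
    (h : l ∈ omin F k) : l ∈ F := omax_mem h

theorem omin_le {α β : Type} [LinearOrder β] {F : Finset α} {k : α → β} {l : α}
    (h : l ∈ F) : ∃ c ∈ omin F k, k c ≤ k l := by
  obtain ⟨c, hc, hc2⟩ := omax_le (k := fun a => OrderDual.toDual (k a)) h
  exact ⟨c, hc, hc2⟩

theorem omax_congr {α β : Type} [LinearOrder β] {F : Finset α} {k k' : α → β}
    (hk : ∀ a ∈ F, ∀ b ∈ F, k a = k b → a = b)
    (h : ∀ c ∈ omax F k', ∀ l ∈ F, k l ≤ k c) : omax F k = omax F k' := by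
  rcases F.eq_empty_or_nonempty with hF | hF
  · subst hF
    unfold omax
    simp
  · obtain ⟨l, hl⟩ := hF
    obtain ⟨c, hc, _⟩ := omax_le (k := k') hl
    have hcF := omax_mem hc
    obtain ⟨c', hc', h2⟩ := omax_le (k := k) hcF
    have h3 := h c hc c' (omax_mem hc')
    have h4 := hk c hcF c' (omax_mem hc') (le_antisymm h2 h3)
    subst h4
    rw [Option.mem_def] at hc hc'
    rw [hc, hc']

theorem omin_congr {α β : Type} [LinearOrder β] {F : Finset α} {k k' : α → β}
    (hk : ∀ a ∈ F, ∀ b ∈ F, k a = k b → a = b)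
    (h : ∀ c ∈ omin F k', ∀ l ∈ F, k c ≤ k l) : omin F k = omin F k' := by
  unfold omin
  apply omax_congr
  · intro a ha b hb hab
    exact hk a ha b hb hab
  · intro c hc l hl
    exact h c hc l hl

open scoped Classical in
/-- crossing abscissas of the optional line `b` with the lines of `G` -/
noncomputable def crs (G : Finset (ℝ × ℝ)) (b : Option (ℝ × ℝ)) : Finset ℝ :=
  ((b.toFinset ×ˢ G).filter (fun p => p.1.1 ≠ p.2.1)).image (fun p => xc p.1 p.2)

theorem mem_crs {G : Finset (ℝ × ℝ)} {b : Option (ℝ × ℝ)} {a : ℝ} :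
    a ∈ crs G b ↔ ∃ c ∈ b, ∃ l ∈ G, c.1 ≠ l.1 ∧ xc c l = a := by
  unfold crs
  simp only [mem_image, mem_filter, mem_product, Option.mem_toFinset, Prod.exists]
  constructor
  · rintro ⟨c1, c2, l1, l2, ⟨⟨h1, h2⟩, h3⟩, h4⟩
    exact ⟨c1, c2, h1, l1, l2, h2, h3, h4⟩
  · rintro ⟨c1, c2, h1, l1, l2, h2, h3, h4⟩
    exact ⟨c1, c2, l1, l2, ⟨⟨h1, h2⟩, h3⟩, h4⟩

open scoped Classical in
/-- lines of `G` strictly below `z` -/
noncomputable def Fb (G : Finset (ℝ × ℝ)) (z : ℝ × ℝ) : Finset (ℝ × ℝ) :=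
  G.filter (fun l => l.1 * z.1 + l.2 < z.2)

open scoped Classical in
/-- lines of `G` strictly above `z` -/
noncomputable def Ft (G : Finset (ℝ × ℝ)) (z : ℝ × ℝ) : Finset (ℝ × ℝ) :=
  G.filter (fun l => z.2 < l.1 * z.1 + l.2)

noncomputable def bot (G : Finset (ℝ × ℝ)) (z : ℝ × ℝ) : Option (ℝ × ℝ) :=
  omax (Fb G z) (key z.1)

noncomputable def top (G : Finset (ℝ × ℝ)) (z : ℝ × ℝ) : Option (ℝ × ℝ) :=
  omin (Ft G z) (key z.1)

noncomputable def crz (G : Finset (ℝ × ℝ)) (b t : Option (ℝ × ℝ)) : Finset ℝ :=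
  crs G b ∪ crs G t

open scoped Classical in
noncomputable def lft (G : Finset (ℝ × ℝ)) (z : ℝ × ℝ) : Option ℝ :=
  omax ((crz G (bot G z) (top G z)).filter (fun a => a ≤ z.1)) id

open scoped Classical in
noncomputable def rgt (G : Finset (ℝ × ℝ)) (z : ℝ × ℝ) : Option ℝ :=
  omin ((crz G (bot G z) (top G z)).filter (fun a => z.1 < a)) id

/-- trapezoid data: bottom, top, left, right -/
noncomputable def tra (G : Finset (ℝ × ℝ)) (z : ℝ × ℝ) :
    Option (ℝ × ℝ) × Option (ℝ × ℝ) × Option ℝ × Option ℝ :=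
  (bot G z, top G z, lft G z, rgt G z)

/-- the line `l` crosses the open trapezoid `τ` -/
def Cr (τ : Option (ℝ × ℝ) × Option (ℝ × ℝ) × Option ℝ × Option ℝ) (l : ℝ × ℝ) : Prop :=
  ∃ x : ℝ, (∀ a ∈ τ.2.2.1, a < x) ∧ (∀ a ∈ τ.2.2.2, x < a) ∧
    (∀ c ∈ τ.1, c.1 * x + c.2 < l.1 * x + l.2) ∧ (∀ c ∈ τ.2.1, l.1 * x + l.2 < c.1 * x + c.2)

/-- `z` is on no line of `G` -/
def Off (G : Finset (ℝ × ℝ)) (z : ℝ × ℝ) : Prop := ∀ l ∈ G, ¬ Onl l z

theorem off_cases {G : Finset (ℝ × ℝ)} {z : ℝ × ℝ} (hz : Off G z) {l : ℝ × ℝ} (hl : l ∈ G) :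
    l.1 * z.1 + l.2 < z.2 ∨ z.2 < l.1 * z.1 + l.2 := by
  have := hz l hl
  unfold Onl at this
  rcases lt_trichotomy (l.1 * z.1 + l.2) z.2 with h | h | h
  · left; exact h
  · exact absurd h.symm this
  · right; exact h

theorem bot_lt {G : Finset (ℝ × ℝ)} {z c : ℝ × ℝ} (hc : c ∈ bot G z) :
    c ∈ G ∧ c.1 * z.1 + c.2 < z.2 := by
  have := omax_mem hc
  unfold Fb at this
  rw [mem_filter] at this
  exact this

theorem lt_top' {G : Finset (ℝ × ℝ)} {z c : ℝ × ℝ} (hc : c ∈ top G z) :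
    c ∈ G ∧ z.2 < c.1 * z.1 + c.2 := by
  have := omin_mem hc
  unfold Ft at this
  rw [mem_filter] at this
  exact this

theorem above_iff {G : Finset (ℝ × ℝ)} {z : ℝ × ℝ} (hz : Off G z) {t : ℝ × ℝ} (ht : t ∈ G) :
    z.2 < t.1 * z.1 + t.2 ↔ ∀ c ∈ bot G z, key z.1 c < key z.1 t := by
  constructor
  · intro h c hc
    rw [key_lt]; left
    exact (bot_lt hc).2.trans h
  · intro h
    rcases off_cases hz ht with h1 | h1
    · exfalso
      have h2 : t ∈ Fb G z := by unfold Fb; rw [mem_filter]; exact ⟨ht, h1⟩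
      obtain ⟨c, hc, hc2⟩ := omax_le (k := key z.1) h2
      exact absurd (h c hc) (not_lt.mpr hc2)
    · exact h1

theorem below_iff {G : Finset (ℝ × ℝ)} {z : ℝ × ℝ} (hz : Off G z) {t : ℝ × ℝ} (ht : t ∈ G) :
    t.1 * z.1 + t.2 < z.2 ↔ ∀ c ∈ top G z, key z.1 t < key z.1 c := by
  constructor
  · intro h c hc
    rw [key_lt]; left
    exact h.trans (lt_top' hc).2
  · intro h
    rcases off_cases hz ht with h1 | h1
    · exact h1
    · exfalso
      have h2 : t ∈ Ft G z := by unfold Ft; rw [mem_filter]; exact ⟨ht, h1⟩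
      obtain ⟨c, hc, hc2⟩ := omin_le (k := key z.1) h2
      exact absurd (h c hc) (not_lt.mpr hc2)

theorem Ft_congr {G : Finset (ℝ × ℝ)} {z z' : ℝ × ℝ} (hz : Off G z) (hz' : Off G z')
    (hx : z.1 ≤ z'.1) (hb : bot G z = bot G z')
    (hn : ∀ a ∈ crs G (bot G z'), ¬ (z.1 < a ∧ a ≤ z'.1)) : Ft G z = Ft G z' := by
  unfold Ft
  apply Finset.filter_congr
  intro t ht
  rw [above_iff hz ht, above_iff hz' ht, hb]
  apply forall₂_congr
  intro c hc
  apply noncross hx
  intro h
  exact hn _ (mem_crs.mpr ⟨c, hc, t, ht, h, rfl⟩)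

theorem Fb_congr {G : Finset (ℝ × ℝ)} {z z' : ℝ × ℝ} (hz : Off G z) (hz' : Off G z')
    (hx : z.1 ≤ z'.1) (hb : top G z = top G z')
    (hn : ∀ a ∈ crs G (top G z'), ¬ (z.1 < a ∧ a ≤ z'.1)) : Fb G z = Fb G z' := by
  unfold Fb
  apply Finset.filter_congr
  intro t ht
  rw [below_iff hz ht, below_iff hz' ht, hb]
  apply forall₂_congr
  intro c hc
  apply noncross hx
  intro h
  rw [xc_symm]
  exact hn _ (mem_crs.mpr ⟨c, hc, t, ht, h.symm, rfl⟩)

theorem top_congr {G : Finset (ℝ × ℝ)} {z z' : ℝ × ℝ} (hz : Off G z) (hz' : Off G z')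
    (hx : z.1 ≤ z'.1) (hb : bot G z = bot G z')
    (hn : ∀ a ∈ crz G (bot G z') (top G z'), ¬ (z.1 < a ∧ a ≤ z'.1)) : top G z = top G z' := by
  have h1 := Ft_congr hz hz' hx hb (fun a ha => hn a (mem_union_left _ ha))
  have h2 : top G z' = omin (Ft G z) (key z'.1) := by unfold top; rw [h1]
  rw [h2]
  unfold top
  apply omin_congr
  · intro a _ b _ hab; exact key_inj hab
  · intro c hc l hl
    by_contra h
    push Not at h
    have hcG : c ∈ G := by
      have := omin_mem hc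
      unfold Ft at this
      exact (mem_filter.mp this).1
    have hlG : l ∈ G := by
      unfold Ft at hl
      exact (mem_filter.mp hl).1
    have hct : c ∈ top G z' := by rw [h2]; exact hc
    have h3 : key z'.1 l < key z'.1 c := by
      rw [← noncross hx]
      · exact h
      · intro hne
        rw [xc_symm]
        exact hn _ (mem_union_right _ (mem_crs.mpr ⟨c, hct, l, hlG, hne.symm, rfl⟩))
    obtain ⟨c', hc', h4⟩ := omin_le (k := key z'.1) hl
    rw [Option.mem_def] at hc hc'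
    rw [hc] at hc'
    obtain rfl := Option.some.inj hc'
    exact absurd h3 (not_lt.mpr h4)

theorem bot_congr {G : Finset (ℝ × ℝ)} {z z' : ℝ × ℝ} (hz : Off G z) (hz' : Off G z')
    (hx : z.1 ≤ z'.1) (hb : top G z = top G z')
    (hn : ∀ a ∈ crz G (bot G z') (top G z'), ¬ (z.1 < a ∧ a ≤ z'.1)) : bot G z = bot G z' := by
  have h1 := Fb_congr hz hz' hx hb (fun a ha => hn a (mem_union_right _ ha))
  have h2 : bot G z' = omax (Fb G z) (key z'.1) := by unfold bot; rw [h1]
  rw [h2]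
  unfold bot
  apply omax_congr
  · intro a _ b _ hab; exact key_inj hab
  · intro c hc l hl
    by_contra h
    push Not at h
    have hcG : c ∈ G := by
      have := omax_mem hc
      unfold Fb at this
      exact (mem_filter.mp this).1
    have hlG : l ∈ G := by
      unfold Fb at hl
      exact (mem_filter.mp hl).1
    have hct : c ∈ bot G z' := by rw [h2]; exact hc
    have h3 : key z'.1 c < key z'.1 l := by
      rw [← noncross hx]
      · exact h
      · intro hne
        exact hn _ (mem_union_left _ (mem_crs.mpr ⟨c, hct, l, hlG, hne, rfl⟩))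
    obtain ⟨c', hc', h4⟩ := omax_le (k := key z'.1) hl
    rw [Option.mem_def] at hc hc'
    rw [hc] at hc'
    obtain rfl := Option.some.inj hc'
    exact absurd h3 (not_lt.mpr h4)

theorem lft_le {G : Finset (ℝ × ℝ)} {z : ℝ × ℝ} {a : ℝ} (h : a ∈ lft G z) : a ≤ z.1 :=
  (mem_filter.mp (omax_mem h)).2

theorem lt_rgt {G : Finset (ℝ × ℝ)} {z : ℝ × ℝ} {a : ℝ} (h : a ∈ rgt G z) : z.1 < a :=
  (mem_filter.mp (omin_mem h)).2

theorem no_cross_of_lft {G : Finset (ℝ × ℝ)} {z z' : ℝ × ℝ} (hl : lft G z = lft G z') :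
    ∀ a ∈ crz G (bot G z') (top G z'), ¬ (z.1 < a ∧ a ≤ z'.1) := by
  rintro a ha ⟨h1, h2⟩
  have h3 : a ∈ (crz G (bot G z') (top G z')).filter (fun a => a ≤ z'.1) := by
    rw [mem_filter]; exact ⟨ha, h2⟩
  obtain ⟨u, hu, hu2⟩ := omax_le (k := id) h3
  have hu3 : u ∈ lft G z := by rw [hl]; exact hu
  have := lft_le hu3
  simp only [id] at hu2
  linarith

theorem tra_congr_aux {G : Finset (ℝ × ℝ)} {z z' : ℝ × ℝ} (hz : Off G z) (hz' : Off G z')
    (hx : z.1 ≤ z'.1) (hl : lft G z = lft G z')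
    (h : bot G z = bot G z' ∨ top G z = top G z') : tra G z = tra G z' := by
  have hn := no_cross_of_lft hl
  have hb : bot G z = bot G z' := by
    rcases h with h | h
    · exact h
    · exact bot_congr hz hz' hx h hn
  have ht : top G z = top G z' := by
    rcases h with h | h
    · exact top_congr hz hz' hx h hn
    · exact h
  have hr : rgt G z = rgt G z' := by
    unfold rgt
    rw [hb, ht]
    congr 1
    apply Finset.filter_congr
    intro a ha
    constructor
    · intro h1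
      by_contra h2
      push Not at h2
      exact hn a ha ⟨h1, h2⟩
    · intro h1; linarith
  unfold tra
  rw [hb, ht, hl, hr]

theorem tra_congr {G : Finset (ℝ × ℝ)} {z z' : ℝ × ℝ} (hz : Off G z) (hz' : Off G z')
    (hl : lft G z = lft G z') (h : bot G z = bot G z' ∨ top G z = top G z') :
    tra G z = tra G z' := by
  rcases le_total z.1 z'.1 with hx | hx
  · exact tra_congr_aux hz hz' hx hl h
  · exact (tra_congr_aux hz' hz hx hl.symm (h.imp Eq.symm Eq.symm)).symm

end Vale.Agent.P054
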