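import Mathlib

set_option autoImplicit false

open Finset

namespace Vale.Agent.P054

open scoped Classical in
/-- greedy choice of `k` elements hitting most objects -/
theorem greedy_hitting {β ι : Type} (Bad : Finset β) (S : Finset ι) (w : ι → ℝ)
    (hw : ∀ σ ∈ S, 0 < w σ) (hS : S.Nonempty) (hit : ι → β → Prop) (ε : ℝ) (hε1 : ε ≤ 1)
    (hbad : ∀ b ∈ Bad, ε * ∑ σ ∈ S, w σ ≤ ∑ σ ∈ S with hit σ b, w σ) (k : ℕ) :
    ∃ g : Fin k → ι, (∀ i, g i ∈ S) ∧
      ((Bad.filter (fun b => ∀ i, ¬ hit (g i) b)).card : ℝ) ≤ Bad.card * (1 - ε) ^ k := by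
  induction k with
  | zero =>
    refine ⟨fun i => i.elim0, fun i => i.elim0, ?_⟩
    simp
  | succ k ih =>
    obtain ⟨g, hg, hcard⟩ := ih
    set U := Bad.filter (fun b => ∀ i, ¬ hit (g i) b) with hU
    have hUsub : U ⊆ Bad := filter_subset _ _
    have hswap : ∑ σ ∈ S, w σ * ((U.filter (fun b => hit σ b)).card : ℝ)
        = ∑ b ∈ U, ∑ σ ∈ S with hit σ b, w σ := by
      have h1 : ∀ σ ∈ S, w σ * ((U.filter (fun b => hit σ b)).card : ℝ)
          = ∑ b ∈ U, if hit σ b then w σ else 0 := by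
        intro σ _
        rw [Finset.sum_ite, Finset.sum_const, Finset.sum_const_zero, nsmul_eq_mul]
        ring
      rw [Finset.sum_congr rfl h1, Finset.sum_comm]
      apply Finset.sum_congr rfl
      intro b _
      rw [Finset.sum_filter]
    have hge : (U.card : ℝ) * (ε * ∑ σ ∈ S, w σ)
        ≤ ∑ σ ∈ S, w σ * ((U.filter (fun b => hit σ b)).card : ℝ) := by
      rw [hswap, ← nsmul_eq_mul]
      apply Finset.card_nsmul_le_sum
      intro b hb
      exact hbad b (hUsub hb)
    have hex : ∃ σ ∈ S, ε * (U.card : ℝ) ≤ ((U.filter (fun b => hit σ b)).card : ℝ) := by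
      by_contra hcon
      push Not at hcon
      have : ∑ σ ∈ S, w σ * ((U.filter (fun b => hit σ b)).card : ℝ)
          < ∑ σ ∈ S, w σ * (ε * (U.card : ℝ)) := by
        apply Finset.sum_lt_sum_of_nonempty hS
        intro σ hσ
        exact mul_lt_mul_of_pos_left (hcon σ hσ) (hw σ hσ)
      rw [← Finset.sum_mul] at this
      nlinarith
    obtain ⟨σ, hσ, hσU⟩ := hex
    refine ⟨Fin.cons σ g, ?_, ?_⟩
    · intro i
      refine Fin.cases ?_ ?_ i
      · simpa using hσ
      · intro j; simpa using hg j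
    · have heq : Bad.filter (fun b => ∀ i, ¬ hit ((Fin.cons σ g : Fin (k+1) → ι) i) b)
          = U.filter (fun b => ¬ hit σ b) := by
        ext b
        simp only [hU, mem_filter, Fin.forall_fin_succ, Fin.cons_zero, Fin.cons_succ]
        tauto
      rw [heq]
      have hsplit : ((U.filter (fun b => hit σ b)).card : ℝ)
          + ((U.filter (fun b => ¬ hit σ b)).card : ℝ) = U.card := by
        exact_mod_cast Finset.card_filter_add_card_filter_not (s := U) (fun b => hit σ b)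
      have h1 : ((U.filter (fun b => ¬ hit σ b)).card : ℝ) ≤ (1 - ε) * U.card := by linarith
      calc ((U.filter (fun b => ¬ hit σ b)).card : ℝ) ≤ (1 - ε) * U.card := h1
        _ ≤ (1 - ε) * (Bad.card * (1 - ε) ^ k) := by
            apply mul_le_mul_of_nonneg_left hcard; linarith
        _ = Bad.card * (1 - ε) ^ (k + 1) := by ring

open scoped Classical in
theorem exists_net {α ι : Type} (P : Finset α) (hP : P.Nonempty) (S : Finset ι) (hS : S.Nonempty)
    (R : ι → α → Bool) (w : ι → ℝ) (hw : ∀ σ ∈ S, 0 < w σ) (s : ℕ) (hs : 1 ≤ s) :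
    ∃ g : Fin s → ι, (∀ k, g k ∈ S) ∧ ∀ q ∈ P, ∀ q' ∈ P, (∀ k, R (g k) q = R (g k) q') →
      ∑ σ ∈ S with R σ q ≠ R σ q', w σ ≤ ((2 * Real.log P.card + 1) / s) * ∑ σ ∈ S, w σ := by
  set ε : ℝ := (2 * Real.log P.card + 1) / s with hε
  have hn : (1:ℝ) ≤ P.card := by exact_mod_cast hP.card_pos
  have hlog : 0 ≤ Real.log P.card := Real.log_nonneg hn
  have hs' : (0:ℝ) < s := by exact_mod_cast hs
  have hW : 0 < ∑ σ ∈ S, w σ := Finset.sum_pos hw hS
  rcases le_or_gt 1 ε with h1 | h1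
  · obtain ⟨σ₀, hσ₀⟩ := hS
    refine ⟨fun _ => σ₀, fun _ => hσ₀, ?_⟩
    intro q _ q' _ _
    calc ∑ σ ∈ S with R σ q ≠ R σ q', w σ ≤ ∑ σ ∈ S, w σ := by
          apply Finset.sum_le_sum_of_subset_of_nonneg (filter_subset _ _)
          intro σ hσ _
          exact (hw σ hσ).le
      _ ≤ ε * ∑ σ ∈ S, w σ := le_mul_of_one_le_left hW.le h1
  · set Bad := (P ×ˢ P).filter (fun p => ε * ∑ σ ∈ S, w σ < ∑ σ ∈ S with R σ p.1 ≠ R σ p.2, w σ)
      with hBad
    obtain ⟨g, hg, hcard⟩ := greedy_hitting Bad S w hw hS (fun σ p => R σ p.1 ≠ R σ p.2) ε h1.le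
      (fun b hb => by
        rw [hBad, mem_filter] at hb
        refine (hb.2.le).trans (le_of_eq ?_)
        congr) s
    refine ⟨g, hg, ?_⟩
    intro q hq q' hq' hqq
    by_contra hcon
    push Not at hcon
    have hmem : (q, q') ∈ Bad.filter (fun b => ∀ i, ¬ (R (g i) b.1 ≠ R (g i) b.2)) := by
      rw [mem_filter, hBad, mem_filter, mem_product]
      refine ⟨⟨⟨hq, hq'⟩, hcon⟩, ?_⟩
      intro i
      simpa using hqq i
    have hpos : (1:ℝ) ≤ ((Bad.filter (fun b => ∀ i, ¬ (R (g i) b.1 ≠ R (g i) b.2))).card : ℝ) := by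
      exact_mod_cast Finset.card_pos.mpr ⟨_, hmem⟩
    have hBadcard : (Bad.card : ℝ) ≤ (P.card : ℝ) ^ 2 := by
      have : Bad.card ≤ (P ×ˢ P).card := card_filter_le _ _
      rw [card_product] at this
      calc (Bad.card : ℝ) ≤ ((P.card * P.card : ℕ) : ℝ) := by exact_mod_cast this
        _ = (P.card : ℝ) ^ 2 := by push_cast; ring
    have hpow : (1 - ε) ^ s ≤ Real.exp (-(2 * Real.log P.card + 1)) := by
      have h2 : 1 - ε ≤ Real.exp (-ε) := Real.one_sub_le_exp_neg ε
      calc (1 - ε) ^ s ≤ (Real.exp (-ε)) ^ s := by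
            apply pow_le_pow_left₀ _ h2; linarith
        _ = Real.exp (-(2 * Real.log P.card + 1)) := by
            rw [← Real.exp_nat_mul]
            congr 1
            rw [hε]; field_simp
    have hexp : Real.exp (-(2 * Real.log P.card + 1)) * (P.card : ℝ) ^ 2 = Real.exp (-1) := by
      have h3 : (P.card : ℝ) ^ 2 = Real.exp (2 * Real.log P.card) := by
        rw [mul_comm, Real.exp_mul, Real.exp_log (by linarith)]
        norm_cast
      rw [h3, ← Real.exp_add]; congr 1; ring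
    have hlt : Real.exp (-1) < 1 := by
      rw [Real.exp_lt_one_iff]; norm_num
    have hε0 : 0 ≤ (1 - ε) ^ s := pow_nonneg (by linarith) s
    have : (1:ℝ) < 1 := by
      calc (1:ℝ) ≤ _ := hpos
        _ ≤ Bad.card * (1 - ε) ^ s := by convert hcard
        _ ≤ (P.card : ℝ) ^ 2 * (1 - ε) ^ s := by gcongr
        _ ≤ (P.card : ℝ) ^ 2 * Real.exp (-(2 * Real.log P.card + 1)) := by gcongr
        _ = Real.exp (-1) := by rw [mul_comm]; exact hexp
        _ < 1 := hlt
    exact lt_irrefl _ this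

open scoped Classical in
theorem exists_class {α ι : Type} (P Q : Finset α) (hQ : Q ⊆ P) (hP : P.Nonempty)
    (S : Finset ι) (hS : S.Nonempty)
    (R : ι → α → Bool) (w : ι → ℝ) (hw : ∀ σ ∈ S, 0 < w σ) (B x s : ℕ) (hs : 1 ≤ s) (hx : 1 ≤ x)
    (hB : ∀ g : Fin s → ι, (∀ k, g k ∈ S) →
      (P.image (fun y => fun k => R (g k) y)).card ≤ B) (hB1 : 1 ≤ B)
    (hcard : x * B ≤ Q.card) :
    ∃ X ⊆ Q, X.card = x ∧ ∀ q ∈ X, ∀ q' ∈ X,
      ∑ σ ∈ S with R σ q ≠ R σ q', w σ ≤ ((2 * Real.log P.card + 1) / s) * ∑ σ ∈ S, w σ := by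
  obtain ⟨g, hg, hsep⟩ := exists_net P hP S hS R w hw s hs
  have hQne : Q.Nonempty := by
    rw [← Finset.card_pos]
    exact lt_of_lt_of_le (Nat.mul_pos hx hB1) hcard
  have hcard2 : (Q.image (fun y => fun k => R (g k) y)).card * x ≤ Q.card := by
    calc (Q.image (fun y => fun k => R (g k) y)).card * x
        ≤ (P.image (fun y => fun k => R (g k) y)).card * x :=
          Nat.mul_le_mul_right x (card_le_card (image_subset_image hQ))
      _ ≤ B * x := Nat.mul_le_mul_right x (hB g hg)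
      _ = x * B := mul_comm _ _
      _ ≤ Q.card := hcard
  obtain ⟨c, _, hc⟩ := exists_le_card_fiber_of_mul_le_card_of_maps_to
    (f := fun y => fun k => R (g k) y) (fun a ha => mem_image_of_mem _ ha)
    (hQne.image _) hcard2
  obtain ⟨X, hXsub, hXcard⟩ := exists_subset_card_eq hc
  refine ⟨X, hXsub.trans (filter_subset _ _), hXcard, ?_⟩
  intro q hq q' hq'
  have h1 := mem_filter.mp (hXsub hq)
  have h2 := mem_filter.mp (hXsub hq')
  apply hsep q (hQ h1.1) q' (hQ h2.1)
  intro k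
  have := h1.2.trans h2.2.symm
  exact congrFun this k


open scoped Classical in
/-- number of ordered pairs of `X` separated by the range `σ` -/
noncomputable def sepc {α ι : Type} (R : ι → α → Bool) (σ : ι) (X : Finset α) : ℝ :=
  (((X ×ˢ X).filter (fun p => R σ p.1 ≠ R σ p.2)).card : ℝ)

theorem sepc_nonneg {α ι : Type} (R : ι → α → Bool) (σ : ι) (X : Finset α) :
    0 ≤ sepc R σ X := by
  unfold sepc; positivity

theorem sepc_le {α ι : Type} (R : ι → α → Bool) (σ : ι) (X : Finset α) :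
    sepc R σ X ≤ (X.card : ℝ) ^ 2 := by
  classical
  unfold sepc
  calc (((X ×ˢ X).filter (fun p => R σ p.1 ≠ R σ p.2)).card : ℝ) ≤ ((X ×ˢ X).card : ℝ) := by
        exact_mod_cast card_filter_le _ _
    _ = (X.card : ℝ) ^ 2 := by rw [card_product]; push_cast; ring

open scoped Classical in
theorem sum_mul_sepc {α ι : Type} (S : Finset ι) (R : ι → α → Bool) (w : ι → ℝ) (X : Finset α)
    (D : ℝ) (hX : ∀ q ∈ X, ∀ q' ∈ X, ∑ σ ∈ S with R σ q ≠ R σ q', w σ ≤ D) :
    ∑ σ ∈ S, w σ * sepc R σ X ≤ (X.card : ℝ) ^ 2 * D := by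
  have h1 : ∀ σ ∈ S, w σ * sepc R σ X
      = ∑ p ∈ X ×ˢ X, if R σ p.1 ≠ R σ p.2 then w σ else 0 := by
    intro σ _
    rw [Finset.sum_ite, Finset.sum_const, Finset.sum_const_zero, nsmul_eq_mul]
    unfold sepc
    ring
  rw [Finset.sum_congr rfl h1, Finset.sum_comm]
  have h2 : ∀ p ∈ X ×ˢ X, ∑ σ ∈ S, (if R σ p.1 ≠ R σ p.2 then w σ else 0) ≤ D := by
    intro p hp
    rw [mem_product] at hp
    have := hX p.1 hp.1 p.2 hp.2
    rwa [Finset.sum_filter] at this
  calc ∑ p ∈ X ×ˢ X, ∑ σ ∈ S, (if R σ p.1 ≠ R σ p.2 then w σ else 0)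
      ≤ (X ×ˢ X).card • D := Finset.sum_le_card_nsmul _ _ _ h2
    _ = (X.card : ℝ) ^ 2 * D := by
        rw [nsmul_eq_mul, card_product]; push_cast; ring

theorem half_le_log {φ : ℝ} (h0 : 0 ≤ φ) (h1 : φ ≤ 1) : φ / 2 ≤ Real.log (1 + φ) := by
  refine le_trans ?_ (Real.le_log_one_add_of_nonneg h0)
  rw [div_le_div_iff₀ (by norm_num) (by linarith)]
  nlinarith

open scoped Classical in
/-- iteration of `exists_class` -/
theorem partition_aux {α ι : Type} (P : Finset α) (S : Finset ι) (hS : S.Nonempty)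
    (R : ι → α → Bool) (B x s : ℕ) (hs : 1 ≤ s) (hx : 1 ≤ x)
    (hB : ∀ g : Fin s → ι, (∀ k, g k ∈ S) →
      (P.image (fun y => fun k => R (g k) y)).card ≤ B) (hB1 : 1 ≤ B) (hP : P.Nonempty)
    (hcard : 2 * x * B ≤ P.card) (i : ℕ) (hi : 2 * (i * x) ≤ P.card + 2 * x) (hi' : i = 0 ∨ 2 * ((i - 1) * x) ≤ P.card) :
    ∃ (X : Fin i → Finset α), (∀ k, X k ⊆ P) ∧ (∀ k, (X k).card = x) ∧
      (∀ k l, k ≠ l → Disjoint (X k) (X l)) ∧
      ∑ σ ∈ S, ∏ k, (1 + sepc R σ (X k) / (x:ℝ) ^ 2)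
        ≤ S.card * (1 + (2 * Real.log P.card + 1) / s) ^ i := by
  set ε : ℝ := (2 * Real.log P.card + 1) / s with hε
  have hn : (1:ℝ) ≤ P.card := by exact_mod_cast hP.card_pos
  have hlog : 0 ≤ Real.log P.card := Real.log_nonneg hn
  have hs' : (0:ℝ) < s := by exact_mod_cast hs
  have hε0 : 0 ≤ ε := by rw [hε]; positivity
  induction i with
  | zero =>
    refine ⟨fun k => k.elim0, fun k => k.elim0, fun k => k.elim0, fun k => k.elim0, ?_⟩
    simp
  | succ i ih =>
    have hi2 : 2 * (i * x) ≤ P.card := by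
      rcases hi' with h | h
      · omega
      · simpa using h
    obtain ⟨X, hXP, hXc, hXd, hXpot⟩ := ih (by omega) (by
      rcases Nat.eq_zero_or_pos i with h | h
      · left; exact h
      · right
        have : (i - 1) * x ≤ i * x := Nat.mul_le_mul_right x (by omega)
        omega)
    set Q := P \ (Finset.univ.biUnion X) with hQ
    have hbi : (Finset.univ.biUnion X).card = i * x := by
      rw [Finset.card_biUnion (fun k _ l _ hkl => hXd k l hkl)]
      simp [hXc]
    have hbisub : Finset.univ.biUnion X ⊆ P := by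
      intro y hy
      rw [mem_biUnion] at hy
      obtain ⟨k, _, hk⟩ := hy
      exact hXP k hk
    have hQcard : Q.card = P.card - i * x := by
      rw [hQ, card_sdiff_of_subset hbisub, hbi]
    have hQcard2 : x * B ≤ Q.card := by
      rw [hQcard]
      have : 2 * x * B = 2 * (x * B) := by ring
      omega
    set w : ι → ℝ := fun σ => ∏ k, (1 + sepc R σ (X k) / (x:ℝ) ^ 2) with hw
    have hwpos : ∀ σ ∈ S, 0 < w σ := by
      intro σ _
      apply Finset.prod_pos
      intro k _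
      have := sepc_nonneg R σ (X k)
      positivity
    obtain ⟨Y, hYQ, hYc, hYsep⟩ := exists_class P Q sdiff_subset hP S hS R w hwpos B x s hs hx hB
      hB1 hQcard2
    refine ⟨Fin.snoc X Y, ?_, ?_, ?_, ?_⟩
    · intro k
      refine Fin.lastCases ?_ (fun k => ?_) k
      · simpa using hYQ.trans sdiff_subset
      · simpa using hXP k
    · intro k
      refine Fin.lastCases ?_ (fun k => ?_) k
      · simpa using hYc
      · simpa using hXc k
    · have hdis : ∀ k, Disjoint (X k) Y := by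
        intro k
        rw [Finset.disjoint_left]
        intro y hy hyY
        have := hYQ hyY
        rw [hQ, mem_sdiff, mem_biUnion] at this
        exact this.2 ⟨k, mem_univ _, hy⟩
      intro k l
      refine Fin.lastCases ?_ (fun k => ?_) k
      · refine Fin.lastCases ?_ (fun l => ?_) l
        · intro h; exact absurd rfl h
        · intro _
          simpa using (hdis l).symm
      · refine Fin.lastCases ?_ (fun l => ?_) l
        · intro _
          simpa using hdis k
        · intro h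
          have h' : k ≠ l := by
            intro hkl; apply h; rw [hkl]
          simpa using hXd k l h'
    · have h1 : ∀ σ ∈ S, ∏ k, (1 + sepc R σ ((Fin.snoc X Y : Fin (i+1) → Finset α) k) / (x:ℝ) ^ 2)
          = w σ + (w σ * sepc R σ Y) / (x:ℝ) ^ 2 := by
        intro σ _
        rw [Fin.prod_univ_castSucc]
        simp only [Fin.snoc_castSucc, Fin.snoc_last, hw]
        ring
      rw [Finset.sum_congr rfl h1, Finset.sum_add_distrib, ← Finset.sum_div]
      have h2 := sum_mul_sepc S R w Y (ε * ∑ σ ∈ S, w σ) hYsep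
      rw [hYc] at h2
      have hx' : (0:ℝ) < x := by exact_mod_cast hx
      have h3 : (∑ σ ∈ S, w σ * sepc R σ Y) / (x:ℝ) ^ 2 ≤ ε * ∑ σ ∈ S, w σ := by
        rw [div_le_iff₀ (by positivity)]
        linarith
      have h4 : ∑ σ ∈ S, w σ ≤ S.card * (1 + ε) ^ i := hXpot
      calc ∑ σ ∈ S, w σ + (∑ σ ∈ S, w σ * sepc R σ Y) / (x:ℝ) ^ 2
          ≤ ∑ σ ∈ S, w σ + ε * ∑ σ ∈ S, w σ := by linarith
        _ = (1 + ε) * ∑ σ ∈ S, w σ := by ring
        _ ≤ (1 + ε) * (S.card * (1 + ε) ^ i) := by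
            apply mul_le_mul_of_nonneg_left h4; linarith
        _ = S.card * (1 + ε) ^ (i + 1) := by ring

/-- partition: `r` disjoint classes of size `x`, every range in `S` separates few same-class pairs -/
theorem partition {α ι : Type} (P : Finset α) (S : Finset ι) (hS : S.Nonempty)
    (R : ι → α → Bool) (B x s : ℕ) (hs : 1 ≤ s) (hx : 1 ≤ x)
    (hB : open scoped Classical in ∀ g : Fin s → ι, (∀ k, g k ∈ S) →
      (P.image (fun y => fun k => R (g k) y)).card ≤ B)
    (hcard : 2 * x * B ≤ P.card) (hcard2 : 4 * x ≤ P.card) :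
    ∃ (r : ℕ) (X : Fin r → Finset α), (∀ i, X i ⊆ P) ∧ (∀ i, (X i).card = x) ∧
      (∀ i j, i ≠ j → Disjoint (X i) (X j)) ∧ P.card ≤ 4 * (r * x) ∧
      ∀ σ ∈ S, ∑ i, sepc R σ (X i) ≤
        (x:ℝ) ^ 2 * (2 * (Real.log S.card + r * ((2 * Real.log P.card + 1) / s))) := by
  classical
  have hP : P.Nonempty := by
    rw [← Finset.card_pos]; omega
  have hB1 : 1 ≤ B := by
    obtain ⟨σ₀, hσ₀⟩ := hS
    have h := hB (fun _ => σ₀) (fun _ => hσ₀)
    refine le_trans ?_ h
    exact Finset.card_pos.mpr (hP.image _)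
  set r := P.card / (2 * x) with hr
  have hr1 : 2 * (r * x) ≤ P.card := by
    have := Nat.div_mul_le_self P.card (2 * x)
    rw [← hr] at this
    calc 2 * (r * x) = r * (2 * x) := by ring
      _ ≤ P.card := this
  have hr2 : P.card ≤ 4 * (r * x) := by
    have h1 := Nat.lt_div_mul_add (a := P.card) (b := 2 * x) (by omega)
    rw [← hr] at h1
    have h2 : 2 ≤ r := by
      rw [hr, Nat.le_div_iff_mul_le (by omega)]
      omega
    have h3 : r * (2 * x) = 2 * (r * x) := by ring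
    have h4 : 2 * x ≤ r * x := Nat.mul_le_mul_right x h2
    omega
  have hr3 : r = 0 ∨ 2 * ((r - 1) * x) ≤ P.card := by
    right
    have : (r - 1) * x ≤ r * x := Nat.mul_le_mul_right x (Nat.sub_le r 1)
    omega
  obtain ⟨X, hXP, hXc, hXd, hXpot⟩ := partition_aux P S hS R B x s hs hx
    (fun g hg => by convert hB g hg) hB1 hP hcard r (by omega) hr3
  refine ⟨r, X, hXP, hXc, hXd, hr2, ?_⟩
  intro σ hσ
  set ε : ℝ := (2 * Real.log P.card + 1) / s with hε
  have hn : (1:ℝ) ≤ P.card := by exact_mod_cast hP.card_pos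
  have hlog : 0 ≤ Real.log P.card := Real.log_nonneg hn
  have hs' : (0:ℝ) < s := by exact_mod_cast hs
  have hε0 : 0 ≤ ε := by rw [hε]; positivity
  have hx' : (0:ℝ) < x := by exact_mod_cast hx
  have hφ0 : ∀ k, 0 ≤ sepc R σ (X k) / (x:ℝ) ^ 2 := fun k => by
    have := sepc_nonneg R σ (X k); positivity
  have hφ1 : ∀ k, sepc R σ (X k) / (x:ℝ) ^ 2 ≤ 1 := fun k => by
    rw [div_le_one (by positivity)]
    have := sepc_le R σ (X k)
    rwa [hXc k] at this
  have hprodpos : ∀ τ ∈ S, 0 < ∏ k, (1 + sepc R τ (X k) / (x:ℝ) ^ 2) := by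
    intro τ _
    apply Finset.prod_pos
    intro k _
    have := sepc_nonneg R τ (X k)
    positivity
  have h1 : ∏ k, (1 + sepc R σ (X k) / (x:ℝ) ^ 2) ≤ S.card * (1 + ε) ^ r := by
    refine le_trans ?_ hXpot
    exact Finset.single_le_sum (f := fun τ => ∏ k, (1 + sepc R τ (X k) / (x:ℝ) ^ 2))
      (fun τ hτ => (hprodpos τ hτ).le) hσ
  have hScard : (0:ℝ) < S.card := by exact_mod_cast hS.card_pos
  have h2 : ∑ k, Real.log (1 + sepc R σ (X k) / (x:ℝ) ^ 2) ≤ Real.log S.card + r * ε := by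
    rw [← Real.log_prod (fun k _ => by have := hφ0 k; positivity)]
    calc Real.log (∏ k, (1 + sepc R σ (X k) / (x:ℝ) ^ 2))
        ≤ Real.log (S.card * (1 + ε) ^ r) := Real.log_le_log (hprodpos σ hσ) h1
      _ = Real.log S.card + r * Real.log (1 + ε) := by
          rw [Real.log_mul hScard.ne' (by positivity), Real.log_pow]
      _ ≤ Real.log S.card + r * ε := by
          have h3 : Real.log (1 + ε) ≤ ε := by
            have := Real.log_le_sub_one_of_pos (show 0 < 1 + ε by linarith)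
            linarith
          have h4 : (0:ℝ) ≤ r := by positivity
          nlinarith
  have h3 : ∑ k, (sepc R σ (X k) / (x:ℝ) ^ 2) / 2
      ≤ ∑ k, Real.log (1 + sepc R σ (X k) / (x:ℝ) ^ 2) :=
    Finset.sum_le_sum (fun k _ => half_le_log (hφ0 k) (hφ1 k))
  rw [← Finset.sum_div, ← Finset.sum_div] at h3
  have h4 : (∑ k, sepc R σ (X k)) / (x:ℝ) ^ 2 ≤ 2 * (Real.log S.card + r * ε) := by linarith
  rw [div_le_iff₀ (by positivity)] at h4
  linarith

end Vale.Agent.P054
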