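import Mathlib
import Vale.Agent.P054.CutA
import Vale.Agent.P054.Partition

set_option autoImplicit false

open Finset

namespace Vale.Agent.P054

/-- no line of `G` crosses the trapezoid of `z` -/
theorem tra_unhit {G : Finset (ℝ × ℝ)} {z : ℝ × ℝ} (hz : Off G z) {g : ℝ × ℝ} (hg : g ∈ G) :
    ¬ Cr (tra G z) g := by
  rintro ⟨x, h1, h2, h3, h4⟩
  simp only [tra] at h1 h2 h3 h4
  have hleft : ∀ a ∈ crz G (bot G z) (top G z), a ≤ z.1 → a < x := by
    intro a ha hax
    have h5 : a ∈ (crz G (bot G z) (top G z)).filter (fun a => a ≤ z.1) := by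
      rw [mem_filter]; exact ⟨ha, hax⟩
    obtain ⟨u, hu, hu2⟩ := omax_le (k := id) h5
    have := h1 u hu
    simp only [id] at hu2
    linarith
  have hright : ∀ a ∈ crz G (bot G z) (top G z), z.1 < a → x < a := by
    intro a ha hax
    have h5 : a ∈ (crz G (bot G z) (top G z)).filter (fun a => z.1 < a) := by
      rw [mem_filter]; exact ⟨ha, hax⟩
    obtain ⟨u, hu, hu2⟩ := omin_le (k := id) h5
    have := h2 u hu
    simp only [id] at hu2
    linarith
  -- transfer of comparisons
  have htr : ∀ c l : ℝ × ℝ, (c.1 ≠ l.1 → xc c l ∈ crz G (bot G z) (top G z)) →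
      (key x c < key x l ↔ key z.1 c < key z.1 l) := by
    intro c l hcl
    rcases le_total x z.1 with hx | hx
    · apply noncross hx
      rintro hne ⟨h5, h6⟩
      have := hleft _ (hcl hne) h6
      linarith
    · symm
      apply noncross hx
      rintro hne ⟨h5, h6⟩
      have := hright _ (hcl hne) h5
      linarith
  rcases off_cases hz hg with h5 | h5
  · -- `g` below `z`
    have h6 : g ∈ Fb G z := by unfold Fb; rw [mem_filter]; exact ⟨hg, h5⟩
    obtain ⟨c, hc, hc2⟩ := omax_le (k := key z.1) h6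
    have h7 : key x c < key x g := by rw [key_lt]; left; exact h3 c hc
    rw [htr c g (fun hne => mem_union_left _ (mem_crs.mpr ⟨c, hc, g, hg, hne, rfl⟩))] at h7
    exact absurd h7 (not_lt.mpr hc2)
  · have h6 : g ∈ Ft G z := by unfold Ft; rw [mem_filter]; exact ⟨hg, h5⟩
    obtain ⟨c, hc, hc2⟩ := omin_le (k := key z.1) h6
    have h7 : key x g < key x c := by rw [key_lt]; left; exact h4 c hc
    rw [htr g c (fun hne => mem_union_right _ (mem_crs.mpr ⟨c, hc, g, hg, hne.symm, xc_symm _ _⟩))] at h7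
    exact absurd h7 (not_lt.mpr hc2)

/-- a line through `z` crosses the trapezoid of `z` -/
theorem tra_hit {G : Finset (ℝ × ℝ)} {z : ℝ × ℝ} {l : ℝ × ℝ} (hl : Onl l z) :
    Cr (tra G z) l := by
  unfold Onl at hl
  have h1 : ∀ᶠ x in nhdsWithin z.1 (Set.Ioi z.1), ∀ a ∈ rgt G z, x < a := by
    rcases h : rgt G z with _ | a
    · simp
    · have h2 : z.1 < a := lt_rgt (by rw [h]; rfl)
      filter_upwards [mem_nhdsWithin_of_mem_nhds (Iio_mem_nhds h2)] with x hx
      intro a' ha'
      rw [Option.mem_some_iff] at ha'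
      rw [← ha']; exact hx
  have hcont : ∀ c c' : ℝ × ℝ, c.1 * z.1 + c.2 < c'.1 * z.1 + c'.2 →
      ∀ᶠ x in nhdsWithin z.1 (Set.Ioi z.1), c.1 * x + c.2 < c'.1 * x + c'.2 := by
    intro c c' h
    have h2 : ∀ᶠ x in nhds z.1, c.1 * x + c.2 < c'.1 * x + c'.2 :=
      (ContinuousAt.eventually_lt (by fun_prop) (by fun_prop) h)
    exact mem_nhdsWithin_of_mem_nhds h2
  have h2 : ∀ᶠ x in nhdsWithin z.1 (Set.Ioi z.1), ∀ c ∈ bot G z, c.1 * x + c.2 < l.1 * x + l.2 := by
    rcases h : bot G z with _ | c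
    · simp
    · have h3 := (bot_lt (G := G) (z := z) (c := c) (by rw [h]; rfl)).2
      rw [hl] at h3
      filter_upwards [hcont c l h3] with x hx
      intro a' ha'
      rw [Option.mem_some_iff] at ha'
      rw [← ha']; exact hx
  have h3 : ∀ᶠ x in nhdsWithin z.1 (Set.Ioi z.1), ∀ c ∈ top G z, l.1 * x + l.2 < c.1 * x + c.2 := by
    rcases h : top G z with _ | c
    · simp
    · have h3 := (lt_top' (G := G) (z := z) (c := c) (by rw [h]; rfl)).2
      rw [hl] at h3
      filter_upwards [hcont l c h3] with x hx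
      intro a' ha'
      rw [Option.mem_some_iff] at ha'
      rw [← ha']; exact hx
  obtain ⟨x, ⟨hx1, hx2, hx3⟩, hx4⟩ := ((h1.and (h2.and h3)).and self_mem_nhdsWithin).exists
  refine ⟨x, ?_, hx1, hx2, hx3⟩
  intro a ha
  have h5 : a ≤ z.1 := lft_le ha
  have h6 : z.1 < x := hx4
  linarith

/-- labels of trapezoids -/
abbrev Lab : Type := (Bool × (ℝ × ℝ) × (ℝ × ℝ)) ⊕ Option (ℝ × ℝ)

def Rel (G : Finset (ℝ × ℝ)) (k : Lab) (z : ℝ × ℝ) : Prop :=
  match k with
  | Sum.inl (true, c, l) => bot G z = some c ∧ lft G z = some (xc c l)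
  | Sum.inl (false, c, l) => top G z = some c ∧ lft G z = some (xc c l)
  | Sum.inr b => bot G z = b ∧ lft G z = none

theorem rel_congr {G : Finset (ℝ × ℝ)} {k : Lab} {z z' : ℝ × ℝ} (hz : Off G z) (hz' : Off G z')
    (h : Rel G k z) (h' : Rel G k z') : tra G z = tra G z' := by
  rcases k with ⟨b, c, l⟩ | b
  · cases b
    · exact tra_congr hz hz' (h.2.trans h'.2.symm) (Or.inr (h.1.trans h'.1.symm))
    · exact tra_congr hz hz' (h.2.trans h'.2.symm) (Or.inl (h.1.trans h'.1.symm))
  · exact tra_congr hz hz' (h.2.trans h'.2.symm) (Or.inl (h.1.trans h'.1.symm))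

open scoped Classical in
noncomputable def labs (G : Finset (ℝ × ℝ)) : Finset Lab :=
  (Finset.univ ×ˢ (G ×ˢ G)).disjSum (Finset.insertNone G)

theorem card_labs (G : Finset (ℝ × ℝ)) : (labs G).card = 2 * G.card ^ 2 + (G.card + 1) := by
  unfold labs
  rw [Finset.card_disjSum, card_product, card_product, Finset.card_insertNone, Finset.card_univ,
    Fintype.card_bool]
  ring

theorem exists_rel {G : Finset (ℝ × ℝ)} (z : ℝ × ℝ) : ∃ k ∈ labs G, Rel G k z := by
  rcases h : lft G z with _ | a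
  · refine ⟨Sum.inr (bot G z), ?_, rfl, h⟩
    unfold labs
    rw [Finset.inr_mem_disjSum, Finset.mem_insertNone]
    intro c hc
    exact (bot_lt hc).1
  · have h1 : a ∈ lft G z := by rw [h]; rfl
    have h2 := (mem_filter.mp (omax_mem h1)).1
    unfold crz at h2
    rcases mem_union.mp h2 with h3 | h3
    · obtain ⟨c, hc, l, hl, hne, hx⟩ := mem_crs.mp h3
      refine ⟨Sum.inl (true, c, l), ?_, hc, ?_⟩
      · unfold labs
        rw [Finset.inl_mem_disjSum, mem_product, mem_product]
        exact ⟨mem_univ _, (bot_lt hc).1, hl⟩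
      · rw [h, hx]
    · obtain ⟨c, hc, l, hl, hne, hx⟩ := mem_crs.mp h3
      refine ⟨Sum.inl (false, c, l), ?_, hc, ?_⟩
      · unfold labs
        rw [Finset.inl_mem_disjSum, mem_product, mem_product]
        exact ⟨mem_univ _, (lt_top' hc).1, hl⟩
      · rw [h, hx]

open scoped Classical in
/-- all trapezoids determined by `L` -/
noncomputable def allTra (L : Finset (ℝ × ℝ)) :
    Finset (Option (ℝ × ℝ) × Option (ℝ × ℝ) × Option ℝ × Option ℝ) :=
  (Finset.insertNone L) ×ˢ ((Finset.insertNone L) ×ˢ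
    ((Finset.insertNone ((L ×ˢ L).image (fun p => xc p.1 p.2))) ×ˢ
      (Finset.insertNone ((L ×ˢ L).image (fun p => xc p.1 p.2)))))

theorem card_allTra (L : Finset (ℝ × ℝ)) : (allTra L).card ≤ (L.card + 1) ^ 6 := by
  unfold allTra
  rw [card_product, card_product, card_product, Finset.card_insertNone, Finset.card_insertNone]
  have h1 : ((L ×ˢ L).image (fun p => xc p.1 p.2)).card ≤ L.card ^ 2 := by
    refine card_image_le.trans ?_
    rw [card_product, pow_two]
  have h2 : ((L ×ˢ L).image (fun p => xc p.1 p.2)).card + 1 ≤ (L.card + 1) ^ 2 := by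
    have : (L.card + 1) ^ 2 = L.card ^ 2 + 2 * L.card + 1 := by ring
    omega
  calc (L.card + 1) * ((L.card + 1) *
        ((((L ×ˢ L).image (fun p => xc p.1 p.2)).card + 1) *
          (((L ×ˢ L).image (fun p => xc p.1 p.2)).card + 1)))
      ≤ (L.card + 1) * ((L.card + 1) * ((L.card + 1) ^ 2 * (L.card + 1) ^ 2)) := by
        gcongr
    _ = (L.card + 1) ^ 6 := by ring

theorem tra_mem_allTra {L G : Finset (ℝ × ℝ)} (hG : G ⊆ L) (z : ℝ × ℝ) :
    tra G z ∈ allTra L := by
  have hcr : ∀ a ∈ crz G (bot G z) (top G z), a ∈ (L ×ˢ L).image (fun p => xc p.1 p.2) := by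
    intro a ha
    unfold crz at ha
    rcases mem_union.mp ha with h | h
    · obtain ⟨c, hc, l, hl, _, hx⟩ := mem_crs.mp h
      rw [mem_image]
      exact ⟨(c, l), mem_product.mpr ⟨hG (bot_lt hc).1, hG hl⟩, hx⟩
    · obtain ⟨c, hc, l, hl, _, hx⟩ := mem_crs.mp h
      rw [mem_image]
      exact ⟨(c, l), mem_product.mpr ⟨hG (lt_top' hc).1, hG hl⟩, hx⟩
  unfold allTra tra
  rw [mem_product, mem_product, mem_product, mem_insertNone, mem_insertNone, mem_insertNone,
    mem_insertNone]
  refine ⟨fun c hc => hG (bot_lt hc).1, fun c hc => hG (lt_top' hc).1, ?_, ?_⟩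
  · intro a ha
    exact hcr a (mem_filter.mp (omax_mem ha)).1
  · intro a ha
    exact hcr a (mem_filter.mp (omin_mem ha)).1

end Vale.Agent.P054
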