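import Mathlib
import Vale.Agent.P054.CutB

set_option autoImplicit false

open Finset

namespace Vale.Agent.P054

open scoped Classical in
theorem cutting (L : Finset (ℝ × ℝ)) (hL : L.Nonempty) (s : ℕ) (hs : 1 ≤ s) :
    ∃ G ⊆ L, G.card ≤ s ∧ ∃ lab : ℝ × ℝ → Lab, (∀ z, lab z ∈ labs G) ∧
      ∀ z, Off G z → ((L.filter (fun l => ∃ z', Off G z' ∧ lab z' = lab z ∧ Onl l z')).card : ℝ) ≤
        ((6 * Real.log (L.card + 1) + 1) / s) * L.card := by
  set ε : ℝ := (6 * Real.log (L.card + 1) + 1) / s with hε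
  have hs' : (0:ℝ) < s := by exact_mod_cast hs
  have hN : (1:ℝ) ≤ L.card := by exact_mod_cast hL.card_pos
  have hlog : 0 ≤ Real.log ((L.card : ℝ) + 1) := Real.log_nonneg (by linarith)
  -- choose the sample
  have hsample : ∃ g : Fin s → ℝ × ℝ, (∀ i, g i ∈ L) ∧ ∀ τ ∈ allTra L, (∀ i, ¬ Cr τ (g i)) →
      ((L.filter (fun l => Cr τ l)).card : ℝ) ≤ ε * L.card := by
    rcases le_or_gt 1 ε with h1 | h1
    · obtain ⟨l₀, hl₀⟩ := hL
      refine ⟨fun _ => l₀, fun _ => hl₀, ?_⟩
      intro τ _ _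
      have h2 : ((L.filter (fun l => Cr τ l)).card : ℝ) ≤ L.card := by
        exact_mod_cast card_filter_le _ _
      nlinarith
    · set Bad := (allTra L).filter (fun τ => ε * L.card < ((L.filter (fun l => Cr τ l)).card : ℝ))
        with hBad
      obtain ⟨g, hg, hcard⟩ := greedy_hitting Bad L (fun _ => (1:ℝ)) (fun _ _ => one_pos) hL
        (fun l τ => Cr τ l) ε h1.le
        (fun b hb => by
          rw [hBad, mem_filter] at hb
          rw [Finset.sum_const, Finset.sum_const, nsmul_eq_mul, nsmul_eq_mul, mul_one, mul_one]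
          exact (hb.2.le).trans (le_of_eq (by congr))) s
      refine ⟨g, hg, ?_⟩
      intro τ hτ hunhit
      by_contra hcon
      push Not at hcon
      have hmem : τ ∈ Bad.filter (fun b => ∀ i, ¬ Cr b (g i)) := by
        rw [mem_filter, hBad, mem_filter]
        exact ⟨⟨hτ, hcon⟩, hunhit⟩
      have hpos : (1:ℝ) ≤ ((Bad.filter (fun b => ∀ i, ¬ Cr b (g i))).card : ℝ) := by
        exact_mod_cast Finset.card_pos.mpr ⟨_, hmem⟩
      have hBadcard : (Bad.card : ℝ) ≤ ((L.card : ℝ) + 1) ^ 6 := by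
        have h2 : Bad.card ≤ (L.card + 1) ^ 6 := (card_filter_le _ _).trans (card_allTra L)
        exact_mod_cast h2
      have hpow : (1 - ε) ^ s ≤ Real.exp (-(6 * Real.log (L.card + 1) + 1)) := by
        have h2 : 1 - ε ≤ Real.exp (-ε) := Real.one_sub_le_exp_neg ε
        calc (1 - ε) ^ s ≤ (Real.exp (-ε)) ^ s := by
              apply pow_le_pow_left₀ _ h2; linarith
          _ = Real.exp (-(6 * Real.log (L.card + 1) + 1)) := by
              rw [← Real.exp_nat_mul]
              congr 1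
              rw [hε]; field_simp
      have hexp : ((L.card : ℝ) + 1) ^ 6 * Real.exp (-(6 * Real.log (L.card + 1) + 1))
          = Real.exp (-1) := by
        have h3 : ((L.card : ℝ) + 1) ^ 6 = Real.exp (6 * Real.log (L.card + 1)) := by
          rw [mul_comm, Real.exp_mul, Real.exp_log (by linarith)]
          norm_cast
        rw [h3, ← Real.exp_add]; congr 1; ring
      have hlt : Real.exp (-1) < 1 := by
        rw [Real.exp_lt_one_iff]; norm_num
      have hε0 : 0 ≤ (1 - ε) ^ s := pow_nonneg (by linarith) s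
      have : (1:ℝ) < 1 := by
        calc (1:ℝ) ≤ _ := hpos
          _ ≤ Bad.card * (1 - ε) ^ s := by convert hcard
          _ ≤ ((L.card : ℝ) + 1) ^ 6 * (1 - ε) ^ s := by gcongr
          _ ≤ ((L.card : ℝ) + 1) ^ 6 * Real.exp (-(6 * Real.log (L.card + 1) + 1)) := by gcongr
          _ = Real.exp (-1) := hexp
          _ < 1 := hlt
      exact lt_irrefl _ this
  obtain ⟨g, hg, hunhit⟩ := hsample
  set G : Finset (ℝ × ℝ) := Finset.univ.image g with hG
  have hGL : G ⊆ L := by
    intro l hl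
    rw [hG, mem_image] at hl
    obtain ⟨i, _, rfl⟩ := hl
    exact hg i
  have hGc : G.card ≤ s := by
    refine card_image_le.trans ?_
    rw [Finset.card_univ, Fintype.card_fin]
  choose lab hlab hrel using fun z => exists_rel (G := G) z
  refine ⟨G, hGL, hGc, lab, hlab, ?_⟩
  intro z hz
  refine le_trans ?_ (hunhit (tra G z) (tra_mem_allTra hGL z) ?_)
  · have hsub : L.filter (fun l => ∃ z', Off G z' ∧ lab z' = lab z ∧ Onl l z') ⊆
        L.filter (fun l => Cr (tra G z) l) := by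
      intro l hl
      rw [mem_filter] at hl ⊢
      obtain ⟨hlL, z', hz', hlz, hon⟩ := hl
      refine ⟨hlL, ?_⟩
      have h1 : tra G z' = tra G z := by
        apply rel_congr hz' hz (hrel z')
        rw [hlz]
        exact hrel z
      rw [← h1]
      exact tra_hit hon
    exact_mod_cast card_le_card hsub
  · intro i
    apply tra_unhit hz
    rw [hG]
    exact mem_image_of_mem g (mem_univ i)

/-- two distinct lines meet in at most one point -/
theorem onl_unique {l l' z z' : ℝ × ℝ} (h : l ≠ l') (h1 : Onl l z) (h2 : Onl l' z)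
    (h3 : Onl l z') (h4 : Onl l' z') : z = z' := by
  unfold Onl at *
  have hx : (l.1 - l'.1) * (z.1 - z'.1) = 0 := by nlinarith
  rcases mul_eq_zero.mp hx with h5 | h5
  · exfalso
    apply h
    have h6 : l.1 = l'.1 := by linarith
    apply Prod.ext h6
    rw [h6] at h1
    linarith
  · have h6 : z.1 = z'.1 := by linarith
    apply Prod.ext h6
    rw [h1, h3, h6]

open scoped Classical in
/-- weight of the points of `Q` on `l` -/
noncomputable def wt (Q : Finset (ℝ × ℝ)) (μ : ℝ × ℝ → ℝ) (l : ℝ × ℝ) : ℝ :=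
  ∑ z ∈ Q with Onl l z, μ z

open scoped Classical in
theorem wt_nonneg {Q : Finset (ℝ × ℝ)} {μ : ℝ × ℝ → ℝ} (hμ0 : ∀ z ∈ Q, 0 ≤ μ z) (l : ℝ × ℝ) :
    0 ≤ wt Q μ l :=
  Finset.sum_nonneg (fun z hz => hμ0 z (mem_filter.mp hz).1)

open scoped Classical in
/-- incidence bound in one cell -/
theorem cell_bound (Q L : Finset (ℝ × ℝ)) (μ : ℝ × ℝ → ℝ) (m : ℝ)
    (hμ0 : ∀ z ∈ Q, 0 ≤ μ z) (hμ : ∀ z ∈ Q, μ z ≤ m) :
    (∑ l ∈ L, wt Q μ l) ^ 2 ≤ L.card * ((∑ z ∈ Q, μ z) ^ 2 + m * ∑ l ∈ L, wt Q μ l) := by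
  have h1 : (∑ l ∈ L, wt Q μ l) ^ 2 ≤ L.card * ∑ l ∈ L, wt Q μ l ^ 2 :=
    sq_sum_le_card_mul_sum_sq
  refine h1.trans ?_
  apply mul_le_mul_of_nonneg_left _ (by positivity)
  -- sum of squares
  have h2 : ∀ l ∈ L, wt Q μ l ^ 2 = ∑ z ∈ Q, ∑ z' ∈ Q,
      if (Onl l z ∧ Onl l z') then μ z * μ z' else 0 := by
    intro l _
    unfold wt
    rw [pow_two, Finset.sum_mul_sum, Finset.sum_filter]
    apply Finset.sum_congr rfl
    intro z _
    rw [Finset.sum_filter]
    by_cases h : Onl l z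
    · simp only [h, if_true, true_and]
    · simp only [h, if_false, false_and]
      simp
  rw [Finset.sum_congr rfl h2]
  have h3 : ∑ l ∈ L, ∑ z ∈ Q, ∑ z' ∈ Q, (if (Onl l z ∧ Onl l z') then μ z * μ z' else 0)
      = ∑ z ∈ Q, ∑ z' ∈ Q, (μ z * μ z') * ((L.filter (fun l => Onl l z ∧ Onl l z')).card : ℝ) := by
    rw [Finset.sum_comm]
    apply Finset.sum_congr rfl
    intro z _
    rw [Finset.sum_comm]
    apply Finset.sum_congr rfl
    intro z' _
    rw [← Finset.sum_filter, Finset.sum_const, nsmul_eq_mul]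
    ring
  rw [h3]
  have h4 : ∀ z ∈ Q, ∀ z' ∈ Q, (μ z * μ z') * ((L.filter (fun l => Onl l z ∧ Onl l z')).card : ℝ)
      ≤ μ z * μ z' + (if z' = z then m * (μ z * ((L.filter (fun l => Onl l z)).card : ℝ)) else 0) := by
    intro z hz z' hz'
    have h0 := hμ0 z hz
    have h0' := hμ0 z' hz'
    split_ifs with h
    · subst h
      have h5 : (L.filter (fun l => Onl l z' ∧ Onl l z')) = L.filter (fun l => Onl l z') := by
        apply Finset.filter_congr; intro l _; exact and_self_iff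
      rw [h5]
      have h6 : (0:ℝ) ≤ ((L.filter (fun l => Onl l z')).card : ℝ) := by positivity
      have h7 := mul_le_mul_of_nonneg_right (hμ z' hz) (mul_nonneg h0 h6)
      nlinarith [mul_nonneg h0 h0]
    · have h5 : (L.filter (fun l => Onl l z ∧ Onl l z')).card ≤ 1 := by
        rw [Finset.card_le_one]
        intro a ha b hb
        by_contra hab
        have ha' := (mem_filter.mp ha).2
        have hb' := (mem_filter.mp hb).2
        exact h (onl_unique hab ha'.1 hb'.1 ha'.2 hb'.2).symm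
      have h6 : ((L.filter (fun l => Onl l z ∧ Onl l z')).card : ℝ) ≤ 1 := by exact_mod_cast h5
      have h7 := mul_le_mul_of_nonneg_left h6 (mul_nonneg h0 h0')
      linarith
  refine (Finset.sum_le_sum (fun z hz => Finset.sum_le_sum (fun z' hz' => h4 z hz z' hz'))).trans ?_
  have h5 : ∑ z ∈ Q, ∑ z' ∈ Q, (μ z * μ z' +
      (if z' = z then m * (μ z * ((L.filter (fun l => Onl l z)).card : ℝ)) else 0))
      = (∑ z ∈ Q, μ z) ^ 2 + m * ∑ z ∈ Q, μ z * ((L.filter (fun l => Onl l z)).card : ℝ) := by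
    have h6 : ∀ z ∈ Q, ∑ z' ∈ Q, (μ z * μ z' +
        (if z' = z then m * (μ z * ((L.filter (fun l => Onl l z)).card : ℝ)) else 0))
        = μ z * ∑ z' ∈ Q, μ z' + m * (μ z * ((L.filter (fun l => Onl l z)).card : ℝ)) := by
      intro z hz
      rw [Finset.sum_add_distrib, ← Finset.mul_sum, Finset.sum_ite_eq' Q z, if_pos hz]
    rw [Finset.sum_congr rfl h6, Finset.sum_add_distrib, ← Finset.sum_mul, ← Finset.mul_sum]
    ring
  rw [h5]
  have h7 : ∑ z ∈ Q, μ z * ((L.filter (fun l => Onl l z)).card : ℝ) = ∑ l ∈ L, wt Q μ l := by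
    unfold wt
    have h8 : ∀ z ∈ Q, μ z * ((L.filter (fun l => Onl l z)).card : ℝ)
        = ∑ l ∈ L, if Onl l z then μ z else 0 := by
      intro z _
      rw [← Finset.sum_filter, Finset.sum_const, nsmul_eq_mul]; ring
    rw [Finset.sum_congr rfl h8, Finset.sum_comm]
    apply Finset.sum_congr rfl
    intro l _
    rw [Finset.sum_filter]
  rw [h7]

theorem quad_le {I a b M : ℝ} (ha : 0 ≤ a) (hb : 0 ≤ b) (hM : 0 ≤ M)
    (h : I ^ 2 ≤ b ^ 2 * (M ^ 2 + a * I)) : I ≤ a * b ^ 2 + M * b := by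
  by_contra hcon
  push Not at hcon
  have h1 : 0 ≤ a * b ^ 2 + M * b := by positivity
  have hI : 0 ≤ I := h1.trans hcon.le
  nlinarith [mul_nonneg hM hb, mul_nonneg (mul_nonneg hM hb) hI, mul_nonneg ha (sq_nonneg b)]

end Vale.Agent.P054
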