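import Mathlib
import Vale.Agent.P054.CutC

set_option autoImplicit false

open Finset

namespace Vale.Agent.P054

open scoped Classical in
theorem sum_mu_deg (Q L : Finset (ℝ × ℝ)) (μ : ℝ × ℝ → ℝ) :
    ∑ z ∈ Q, μ z * ((L.filter (fun l => Onl l z)).card : ℝ) = ∑ l ∈ L, wt Q μ l := by
  unfold wt
  have h8 : ∀ z ∈ Q, μ z * ((L.filter (fun l => Onl l z)).card : ℝ)
      = ∑ l ∈ L, if Onl l z then μ z else 0 := by
    intro z _
    rw [← Finset.sum_filter, Finset.sum_const, nsmul_eq_mul]; ring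
  rw [Finset.sum_congr rfl h8, Finset.sum_comm]
  apply Finset.sum_congr rfl
  intro l _
  rw [Finset.sum_filter]

open scoped Classical in
theorem wt_inter_le (Q : Finset (ℝ × ℝ)) (μ : ℝ × ℝ → ℝ) (m : ℝ) (hm : 0 ≤ m)
    (hμ : ∀ z ∈ Q, μ z ≤ m) (l l' : ℝ × ℝ) (h : l ≠ l') :
    ∑ z ∈ Q with (Onl l z ∧ Onl l' z), μ z ≤ m := by
  have h1 : (Q.filter (fun z => Onl l z ∧ Onl l' z)).card ≤ 1 := by
    rw [Finset.card_le_one]
    intro a ha b hb
    have ha' := (mem_filter.mp ha).2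
    have hb' := (mem_filter.mp hb).2
    exact onl_unique h ha'.1 ha'.2 hb'.1 hb'.2
  rcases Finset.eq_empty_or_nonempty (Q.filter (fun z => Onl l z ∧ Onl l' z)) with h2 | h2
  · rw [h2]; simpa using hm
  · obtain ⟨z, hz⟩ := h2
    have h3 : Q.filter (fun z => Onl l z ∧ Onl l' z) = {z} := by
      apply Finset.eq_singleton_iff_unique_mem.mpr
      refine ⟨hz, ?_⟩
      intro z' hz'
      exact (Finset.card_le_one.mp h1) z' hz' z hz
    rw [h3, Finset.sum_singleton]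
    exact hμ z (mem_filter.mp hz).1

open scoped Classical in
theorem sum_mu_deg_sq (Q L : Finset (ℝ × ℝ)) (μ : ℝ × ℝ → ℝ) (m : ℝ) (hm : 0 ≤ m)
    (hμ : ∀ z ∈ Q, μ z ≤ m) :
    ∑ z ∈ Q, μ z * ((L.filter (fun l => Onl l z)).card : ℝ) ^ 2
      ≤ ∑ l ∈ L, wt Q μ l + m * (L.card : ℝ) ^ 2 := by
  have h1 : ∀ z ∈ Q, μ z * ((L.filter (fun l => Onl l z)).card : ℝ) ^ 2
      = ∑ l ∈ L, ∑ l' ∈ L, if (Onl l z ∧ Onl l' z) then μ z else 0 := by
    intro z _
    have h2 : ((L.filter (fun l => Onl l z)).card : ℝ) = ∑ l ∈ L, if Onl l z then (1:ℝ) else 0 := by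
      rw [← Finset.sum_filter, Finset.sum_const, nsmul_eq_mul, mul_one]
    rw [h2, pow_two, Finset.sum_mul_sum, Finset.mul_sum]
    apply Finset.sum_congr rfl
    intro l _
    rw [Finset.mul_sum]
    apply Finset.sum_congr rfl
    intro l' _
    by_cases h3 : Onl l z <;> by_cases h4 : Onl l' z <;> simp [h3, h4]
  rw [Finset.sum_congr rfl h1]
  have h2 : ∑ z ∈ Q, ∑ l ∈ L, ∑ l' ∈ L, (if (Onl l z ∧ Onl l' z) then μ z else 0)
      = ∑ l ∈ L, ∑ l' ∈ L, ∑ z ∈ Q with (Onl l z ∧ Onl l' z), μ z := by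
    rw [Finset.sum_comm]
    apply Finset.sum_congr rfl
    intro l _
    rw [Finset.sum_comm]
    apply Finset.sum_congr rfl
    intro l' _
    rw [Finset.sum_filter]
  rw [h2]
  have h3 : ∀ l ∈ L, ∀ l' ∈ L, ∑ z ∈ Q with (Onl l z ∧ Onl l' z), μ z
      ≤ (if l' = l then wt Q μ l else 0) + m := by
    intro l _ l' _
    split_ifs with h
    · subst h
      have h4 : ∑ z ∈ Q with (Onl l' z ∧ Onl l' z), μ z = wt Q μ l' := by
        unfold wt
        apply Finset.sum_congr _ (fun _ _ => rfl)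
        apply Finset.filter_congr; intro z _; exact and_self_iff
      rw [h4]; linarith
    · have := wt_inter_le Q μ m hm hμ l l' (fun h' => h h'.symm)
      linarith
  refine (Finset.sum_le_sum (fun l hl => Finset.sum_le_sum (fun l' hl' => h3 l hl l' hl'))).trans ?_
  have h4 : ∀ l ∈ L, ∑ l' ∈ L, ((if l' = l then wt Q μ l else 0) + m)
      = wt Q μ l + L.card * m := by
    intro l hl
    rw [Finset.sum_add_distrib, Finset.sum_ite_eq' L l, if_pos hl, Finset.sum_const, nsmul_eq_mul]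
  rw [Finset.sum_congr rfl h4, Finset.sum_add_distrib, Finset.sum_const, nsmul_eq_mul]
  apply le_of_eq; ring

open scoped Classical in
/-- few lines: inclusion-exclusion -/
theorem few_lines (Q L : Finset (ℝ × ℝ)) (μ : ℝ × ℝ → ℝ) (m M κ : ℝ)
    (hμ0 : ∀ z ∈ Q, 0 ≤ μ z) (hμ : ∀ z ∈ Q, μ z ≤ m) (hm : 0 ≤ m)
    (hM : ∑ z ∈ Q, μ z ≤ M)
    (hκ : ∀ l ∈ L, κ ≤ wt Q μ l) (hfew : 2 * (m * L.card) ≤ κ) :
    (L.card : ℝ) * κ ≤ 2 * M := by
  have h1 := sum_mu_deg Q L μ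
  have h2 := sum_mu_deg_sq Q L μ m hm hμ
  have h3 : ∑ z ∈ Q, (2 * (μ z * ((L.filter (fun l => Onl l z)).card : ℝ))
      - μ z * ((L.filter (fun l => Onl l z)).card : ℝ) ^ 2) ≤ ∑ z ∈ Q, μ z := by
    apply Finset.sum_le_sum
    intro z hz
    nlinarith [mul_nonneg (hμ0 z hz) (sq_nonneg (((L.filter (fun l => Onl l z)).card : ℝ) - 1))]
  rw [Finset.sum_sub_distrib, ← Finset.mul_sum, h1] at h3
  have h4 : (L.card : ℝ) * κ ≤ ∑ l ∈ L, wt Q μ l := by
    rw [← nsmul_eq_mul]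
    exact Finset.card_nsmul_le_sum _ _ _ hκ
  have h5 : (0:ℝ) ≤ L.card := by positivity
  nlinarith

open scoped Classical in
theorem sum_cells (Q L G : Finset (ℝ × ℝ)) (μ : ℝ × ℝ → ℝ) (m b : ℝ) (hm : 0 ≤ m) (hb : 0 ≤ b)
    (hμ0 : ∀ z ∈ Q, 0 ≤ μ z) (hμ : ∀ z ∈ Q, μ z ≤ m) (lab : ℝ × ℝ → Lab)
    (hlab : ∀ z, lab z ∈ labs G)
    (hcell : ∀ z, Off G z →
      ((L.filter (fun l => ∃ z', Off G z' ∧ lab z' = lab z ∧ Onl l z')).card : ℝ) ≤ b ^ 2) :
    ∑ l ∈ L, wt (Q.filter (fun z => Off G z)) μ l ≤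
      (labs G).card * (m * b ^ 2) + (∑ z ∈ Q, μ z) * b := by
  set Qk : Lab → Finset (ℝ × ℝ) := fun k => (Q.filter (fun z => Off G z)).filter (fun z => lab z = k)
    with hQk
  have h1 : ∀ l ∈ L, wt (Q.filter (fun z => Off G z)) μ l = ∑ k ∈ labs G, wt (Qk k) μ l := by
    intro l _
    unfold wt
    rw [← Finset.sum_fiberwise_of_maps_to (g := lab) (t := labs G) (fun z _ => hlab z)]
    apply Finset.sum_congr rfl
    intro k _
    apply Finset.sum_congr _ (fun _ _ => rfl)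
    rw [hQk]; simp only
    rw [Finset.filter_comm]
  rw [Finset.sum_congr rfl h1, Finset.sum_comm]
  have h2 : ∀ k ∈ labs G, ∑ l ∈ L, wt (Qk k) μ l ≤ m * b ^ 2 + (∑ z ∈ Qk k, μ z) * b := by
    intro k _
    have hsub : Qk k ⊆ Q := (filter_subset _ _).trans (filter_subset _ _)
    rcases (Qk k).eq_empty_or_nonempty with h3 | ⟨z₀, hz₀⟩
    · have h4 : ∑ l ∈ L, wt (Qk k) μ l = 0 := by
        apply Finset.sum_eq_zero
        intro l _
        unfold wt
        rw [h3]; simp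
      rw [h4, h3]
      simp only [Finset.sum_empty, zero_mul, add_zero]
      positivity
    · have hz₁ := mem_filter.mp hz₀
      have hz₂ := (mem_filter.mp hz₁.1).2
      have h3 := hcell z₀ hz₂
      rw [hz₁.2] at h3
      set Lk := L.filter (fun l => ∃ z', Off G z' ∧ lab z' = k ∧ Onl l z') with hLk
      have h4 : ∑ l ∈ L, wt (Qk k) μ l = ∑ l ∈ Lk, wt (Qk k) μ l := by
        symm
        apply Finset.sum_subset (filter_subset _ _)
        intro l hl hl2
        unfold wt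
        apply Finset.sum_eq_zero
        intro z hz
        exfalso
        apply hl2
        rw [mem_filter]
        have h5 := mem_filter.mp hz
        have h6 := mem_filter.mp h5.1
        exact ⟨hl, z, (mem_filter.mp h6.1).2, h6.2, h5.2⟩
      rw [h4]
      have h5 := cell_bound (Qk k) Lk μ m (fun z hz => hμ0 z (hsub hz)) (fun z hz => hμ z (hsub hz))
      have h6 : 0 ≤ ∑ z ∈ Qk k, μ z := Finset.sum_nonneg (fun z hz => hμ0 z (hsub hz))
      apply quad_le hm hb h6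
      refine h5.trans ?_
      apply mul_le_mul_of_nonneg_right h3
      have h7 : 0 ≤ ∑ l ∈ Lk, wt (Qk k) μ l :=
        Finset.sum_nonneg (fun l _ => wt_nonneg (fun z hz => hμ0 z (hsub hz)) l)
      positivity
  refine (Finset.sum_le_sum h2).trans ?_
  rw [Finset.sum_add_distrib, Finset.sum_const, nsmul_eq_mul, ← Finset.sum_mul]
  have h3 : ∑ k ∈ labs G, ∑ z ∈ Qk k, μ z ≤ ∑ z ∈ Q, μ z := by
    have h4 : ∑ k ∈ labs G, ∑ z ∈ Qk k, μ z = ∑ z ∈ Q.filter (fun z => Off G z), μ z :=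
      Finset.sum_fiberwise_of_maps_to (g := lab) (t := labs G) (fun z _ => hlab z) μ
    rw [h4]
    exact Finset.sum_le_sum_of_subset_of_nonneg (filter_subset _ _) (fun z hz _ => hμ0 z hz)
  have := mul_le_mul_of_nonneg_right h3 hb
  linarith

open scoped Classical in
theorem sum_cover_le {β ι : Type} (A : Finset β) (G : Finset ι) (t : ι → Finset β) (μ : β → ℝ)
    (hA : ∀ z ∈ A, ∃ g ∈ G, z ∈ t g) (hμ : ∀ g ∈ G, ∀ z ∈ t g, 0 ≤ μ z) :
    ∑ z ∈ A, μ z ≤ ∑ g ∈ G, ∑ z ∈ t g, μ z := by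
  have h1 : ∀ z ∈ A, μ z ≤ ∑ g ∈ G, if z ∈ t g then μ z else 0 := by
    intro z hz
    obtain ⟨g, hg, hzg⟩ := hA z hz
    have h2 : (if z ∈ t g then μ z else 0) ≤ ∑ g ∈ G, if z ∈ t g then μ z else 0 := by
      apply Finset.single_le_sum (f := fun g => if z ∈ t g then μ z else 0) _ hg
      intro g' hg'
      split_ifs with h
      · exact hμ g' hg' z h
      · exact le_rfl
    rwa [if_pos hzg] at h2
  refine (Finset.sum_le_sum h1).trans ?_
  rw [Finset.sum_comm]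
  apply Finset.sum_le_sum
  intro g hg
  rw [← Finset.sum_filter]
  apply Finset.sum_le_sum_of_subset_of_nonneg
  · intro z hz
    exact (mem_filter.mp hz).2
  · intro z hz _
    exact hμ g hg z hz

theorem st_numeric (N s m M κ Λ b K S : ℝ) (hm : 0 < m) (hΛ1 : 1 ≤ Λ) (hκ0 : 0 < κ) (hs' : 0 < s)
    (hN : 0 < N) (hb0 : 0 ≤ b) (hb2 : b ^ 2 = Λ / s * N)
    (hs3 : κ / (64 * m * Λ) ≤ s) (hs4 : s * (32 * m * Λ) ≤ κ) (hc' : 2 * s ≤ N)
    (hK : K ≤ 4 * s ^ 2) (hS : S ≤ M)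
    (h12 : (N - s) * (κ - s * m) ≤ K * (m * b ^ 2) + S * b) :
    N ≤ 2 ^ 12 * Λ ^ 2 * (m * M ^ 2 / κ ^ 3) := by
  have hsm : s * m * 32 ≤ κ := by
    refine le_trans ?_ hs4
    have h1 : s * m * 32 * 1 ≤ s * m * 32 * Λ := mul_le_mul_of_nonneg_left hΛ1 (by positivity)
    linarith
  have h3 : (N - s) * (κ - s * m) ≥ 31 / 64 * (N * κ) := by
    have h4 : N / 2 ≤ N - s := by linarith
    have h5 : 31 / 32 * κ ≤ κ - s * m := by linarith
    calc (N - s) * (κ - s * m) ≥ (N / 2) * (31 / 32 * κ) := by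
          apply mul_le_mul h4 h5 (by positivity) (by linarith)
      _ = 31 / 64 * (N * κ) := by ring
  have h4 : K * (m * b ^ 2) ≤ 8 / 64 * (N * κ) := by
    calc K * (m * b ^ 2) ≤ 4 * s ^ 2 * (m * b ^ 2) :=
          mul_le_mul_of_nonneg_right hK (by positivity)
      _ = (s * (32 * m * Λ)) * N * (8 / 64) := by
          rw [hb2]; field_simp; ring
      _ ≤ κ * N * (8 / 64) := by
          apply mul_le_mul_of_nonneg_right _ (by norm_num)
          apply mul_le_mul_of_nonneg_right hs4 (by positivity)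
      _ = 8 / 64 * (N * κ) := by ring
  have h5 : S * b ≤ M * b := mul_le_mul_of_nonneg_right hS hb0
  have h6 : 23 / 64 * (N * κ) ≤ M * b := by linarith
  have h7 : (23 / 64 * (N * κ)) ^ 2 ≤ (M * b) ^ 2 := pow_le_pow_left₀ (by positivity) h6 2
  have h8 : (M * b) ^ 2 = M ^ 2 * (Λ / s * N) := by rw [mul_pow, hb2]
  rw [h8] at h7
  have h9 : (23 / 64) ^ 2 * N * κ ^ 2 ≤ M ^ 2 * (Λ / s) := by
    have : (23 / 64) ^ 2 * N * κ ^ 2 * N ≤ M ^ 2 * (Λ / s) * N := by
      calc (23 / 64) ^ 2 * N * κ ^ 2 * N = (23 / 64 * (N * κ)) ^ 2 := by ring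
        _ ≤ M ^ 2 * (Λ / s * N) := h7
        _ = M ^ 2 * (Λ / s) * N := by ring
    exact le_of_mul_le_mul_right this hN
  have h10 : Λ / s ≤ 64 * m * Λ ^ 2 / κ := by
    rw [div_le_div_iff₀ hs' hκ0]
    rw [div_le_iff₀ (by positivity)] at hs3
    have h11 := mul_le_mul_of_nonneg_left hs3 (show 0 ≤ Λ by linarith)
    calc Λ * κ ≤ Λ * (s * (64 * m * Λ)) := h11
      _ = 64 * m * Λ ^ 2 * s := by ring
  have h11 : (23 / 64) ^ 2 * N * κ ^ 2 ≤ M ^ 2 * (64 * m * Λ ^ 2 / κ) :=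
    h9.trans (mul_le_mul_of_nonneg_left h10 (by positivity))
  rw [mul_div_assoc', le_div_iff₀ (by positivity)]
  have h13 : (23 / 64) ^ 2 * N * κ ^ 2 * κ ≤ M ^ 2 * (64 * m * Λ ^ 2) := by
    calc (23 / 64) ^ 2 * N * κ ^ 2 * κ ≤ M ^ 2 * (64 * m * Λ ^ 2 / κ) * κ :=
          mul_le_mul_of_nonneg_right h11 hκ0.le
      _ = M ^ 2 * (64 * m * Λ ^ 2) := by field_simp
  have h14 : 0 ≤ M ^ 2 * (m * Λ ^ 2) := by positivity
  calc N * κ ^ 3 = (64 / 23) ^ 2 * ((23 / 64) ^ 2 * N * κ ^ 2 * κ) := by ring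
    _ ≤ (64 / 23) ^ 2 * (M ^ 2 * (64 * m * Λ ^ 2)) := mul_le_mul_of_nonneg_left h13 (by norm_num)
    _ = (64 / 23) ^ 2 * 64 * (M ^ 2 * (m * Λ ^ 2)) := by ring
    _ ≤ 2 ^ 12 * (M ^ 2 * (m * Λ ^ 2)) := mul_le_mul_of_nonneg_right (by norm_num) h14
    _ = 2 ^ 12 * Λ ^ 2 * (m * M ^ 2) := by ring

open scoped Classical in
/-- weighted Szemeredi-Trotter bound with logarithmic loss -/
theorem planarST (Q L : Finset (ℝ × ℝ)) (μ : ℝ × ℝ → ℝ) (m M κ Λ : ℝ)
    (hμ0 : ∀ z ∈ Q, 0 ≤ μ z) (hμ : ∀ z ∈ Q, μ z ≤ m) (hm : 0 < m)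
    (hM : ∑ z ∈ Q, μ z ≤ M)
    (hκ : ∀ l ∈ L, κ ≤ wt Q μ l)
    (hΛ : 6 * Real.log (L.card + 1) + 1 ≤ Λ) (hκm : 64 * m * Λ ≤ κ) :
    (L.card : ℝ) ≤ 2 ^ 12 * Λ ^ 2 * (m * M ^ 2 / κ ^ 3) + 2 * (M / κ) := by
  have hM0 : 0 ≤ M := (Finset.sum_nonneg hμ0).trans hM
  have hlog : 0 ≤ Real.log ((L.card : ℝ) + 1) := Real.log_nonneg (by
    have : (0:ℝ) ≤ L.card := by positivity
    linarith)
  have hΛ1 : 1 ≤ Λ := by linarith
  have hκ0 : 0 < κ := lt_of_lt_of_le (by positivity) hκm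
  rcases L.eq_empty_or_nonempty with hL | hL
  · subst hL
    rw [card_empty]
    push_cast
    positivity
  have hN : (1:ℝ) ≤ L.card := by exact_mod_cast hL.card_pos
  have hy2 : 2 ≤ κ / (32 * m * Λ) := by
    rw [le_div_iff₀ (by positivity)]; linarith
  set s : ℕ := ⌊κ / (32 * m * Λ)⌋₊ with hs
  have hs1 : (s:ℝ) ≤ κ / (32 * m * Λ) := Nat.floor_le (by positivity)
  have hs2 : κ / (32 * m * Λ) < (s:ℝ) + 1 := Nat.lt_floor_add_one _
  have hs3 : κ / (64 * m * Λ) ≤ s := by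
    have : κ / (64 * m * Λ) = κ / (32 * m * Λ) / 2 := by field_simp; norm_num
    rw [this]; linarith
  have hs4 : (s:ℝ) * (32 * m * Λ) ≤ κ := by rwa [le_div_iff₀ (by positivity)] at hs1
  have hs5 : 1 ≤ s := by
    have : (1:ℝ) ≤ s := by linarith
    exact_mod_cast this
  have hs' : (0:ℝ) < s := by exact_mod_cast hs5
  have hsm : (s:ℝ) * m * 32 ≤ κ := by
    refine le_trans ?_ hs4
    have h1 : (s:ℝ) * m * 32 * 1 ≤ (s:ℝ) * m * 32 * Λ := mul_le_mul_of_nonneg_left hΛ1 (by positivity)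
    linarith
  rcases lt_or_ge (L.card) (2 * s) with hcase | hcase
  · -- few lines
    have hc' : (L.card : ℝ) ≤ 2 * s := by exact_mod_cast hcase.le
    have hfew : 2 * (m * L.card) ≤ κ := by
      have := mul_le_mul_of_nonneg_left hc' hm.le
      nlinarith
    have h1 := few_lines Q L μ m M κ hμ0 hμ hm.le hM hκ hfew
    have h2 : (L.card : ℝ) ≤ 2 * (M / κ) := by
      rw [mul_div_assoc', le_div_iff₀ hκ0]; exact h1
    have h3 : 0 ≤ 2 ^ 12 * Λ ^ 2 * (m * M ^ 2 / κ ^ 3) := by positivity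
    linarith
  · have hc' : 2 * (s:ℝ) ≤ L.card := by exact_mod_cast hcase
    obtain ⟨G, hGL, hGs, lab, hlab, hcell⟩ := cutting L hL s hs5
    set N : ℝ := (L.card : ℝ) with hNdef
    set b : ℝ := Real.sqrt (Λ / s * N) with hb
    have hb0 : 0 ≤ b := Real.sqrt_nonneg _
    have hb2 : b ^ 2 = Λ / s * N := Real.sq_sqrt (by positivity)
    have hcell' : ∀ z, Off G z →
        ((L.filter (fun l => ∃ z', Off G z' ∧ lab z' = lab z ∧ Onl l z')).card : ℝ) ≤ b ^ 2 := by
      intro z hz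
      refine (hcell z hz).trans ?_
      rw [hb2]
      apply mul_le_mul_of_nonneg_right _ (by positivity)
      exact div_le_div_of_nonneg_right hΛ hs'.le
    have h1 := sum_cells Q L G μ m b hm.le hb0 hμ0 hμ lab hlab hcell'
    -- number of cells
    have hK : ((labs G).card : ℝ) ≤ 4 * (s:ℝ) ^ 2 := by
      rw [card_labs]
      push_cast
      have hg : (G.card : ℝ) ≤ s := by exact_mod_cast hGs
      have hs6 : (1:ℝ) ≤ s := by exact_mod_cast hs5
      have hg0 : (0:ℝ) ≤ G.card := by positivity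
      nlinarith
    -- lower bound for lines off the sample
    have hlow : ∀ l ∈ L \ G, κ - s * m ≤ wt (Q.filter (fun z => Off G z)) μ l := by
      intro l hl
      rw [mem_sdiff] at hl
      have h2 : wt Q μ l ≤ wt (Q.filter (fun z => Off G z)) μ l +
          ∑ g ∈ G, ∑ z ∈ Q with (Onl g z ∧ Onl l z), μ z := by
        unfold wt
        have h3 : ∑ z ∈ Q with Onl l z, μ z =
            ∑ z ∈ (Q.filter (fun z => Onl l z)).filter (fun z => Off G z), μ z +
            ∑ z ∈ (Q.filter (fun z => Onl l z)).filter (fun z => ¬ Off G z), μ z :=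
          (Finset.sum_filter_add_sum_filter_not _ _ _).symm
        rw [h3, Finset.filter_comm]
        apply add_le_add le_rfl
        apply sum_cover_le _ G (fun g => Q.filter (fun z => Onl g z ∧ Onl l z))
        · intro z hz
          have h5 := mem_filter.mp hz
          have h6 := mem_filter.mp h5.1
          have h7 := h5.2
          unfold Off at h7
          push Not at h7
          obtain ⟨g, hg, hgz⟩ := h7
          exact ⟨g, hg, mem_filter.mpr ⟨h6.1, hgz, h6.2⟩⟩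
        · intro g _ z hz
          exact hμ0 z (mem_filter.mp hz).1
      have h3 : ∑ g ∈ G, ∑ z ∈ Q with (Onl g z ∧ Onl l z), μ z ≤ s * m := by
        calc ∑ g ∈ G, ∑ z ∈ Q with (Onl g z ∧ Onl l z), μ z ≤ ∑ _g ∈ G, m := by
              apply Finset.sum_le_sum
              intro g hg
              apply wt_inter_le Q μ m hm.le hμ g l
              rintro rfl
              exact hl.2 hg
          _ = G.card * m := by rw [Finset.sum_const, nsmul_eq_mul]
          _ ≤ s * m := by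
              apply mul_le_mul_of_nonneg_right _ hm.le
              exact_mod_cast hGs
      have h4 := hκ l hl.1
      linarith
    have h2 : (N - s) * (κ - s * m) ≤ ∑ l ∈ L, wt (Q.filter (fun z => Off G z)) μ l := by
      have h3 : ((L \ G).card : ℝ) * (κ - s * m) ≤
          ∑ l ∈ L \ G, wt (Q.filter (fun z => Off G z)) μ l := by
        rw [← nsmul_eq_mul]
        exact Finset.card_nsmul_le_sum _ _ _ hlow
      have h4 : ∑ l ∈ L \ G, wt (Q.filter (fun z => Off G z)) μ l ≤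
          ∑ l ∈ L, wt (Q.filter (fun z => Off G z)) μ l := by
        apply Finset.sum_le_sum_of_subset_of_nonneg sdiff_subset
        intro l _ _
        exact wt_nonneg (fun z hz => hμ0 z (mem_filter.mp hz).1) l
      have h5 : N - s ≤ ((L \ G).card : ℝ) := by
        have h6 := le_card_sdiff G L
        have h7 : L.card ≤ (L \ G).card + s := by omega
        have h8 : N ≤ ((L \ G).card : ℝ) + s := by rw [hNdef]; exact_mod_cast h7
        linarith
      have h6 : 0 ≤ κ - s * m := by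
        have : (s:ℝ) * m ≤ s * m * 32 := by nlinarith [mul_pos hs' hm]
        linarith
      nlinarith
    have h12 := st_numeric N s m M κ Λ b _ _ hm hΛ1 hκ0 hs' (by linarith) hb0 hb2 hs3 hs4 hc' hK hM
      (h2.trans h1)
    have h15 : 0 ≤ 2 * (M / κ) := by positivity
    linarith

end Vale.Agent.P054
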