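import Mathlib
import Vale.Agent.P054.Defs
import Vale.Agent.P054.PlanarST

set_option autoImplicit false

open Finset

namespace Vale.Agent.P054

/-- generic planar coordinates for finitely many vectors -/
theorem exists_coords {V ι : Type} [AddCommGroup V] [Module ℝ V] (I : Finset ι) (v : ι → V)
    (hv : ∀ i ∈ I, v i ≠ 0) :
    ∃ (u : ι → V) (f0 f1 f2 : Module.Dual ℝ V), 
      (∀ i ∈ I, f0 (u i) = 1) ∧ (∀ i ∈ I, ∃ c : ℝ, c ≠ 0 ∧ v i = c • u i) ∧
      (∀ i ∈ I, ∀ j ∈ I, u i ≠ u j → f1 (u i) ≠ f1 (u j)) ∧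
      (∀ i ∈ I, ∀ j ∈ I, ∀ k ∈ I,
        (f2 (u k) - f2 (u i)) * (f1 (u j) - f1 (u i)) = (f2 (u j) - f2 (u i)) * (f1 (u k) - f1 (u i)) →
        (f1 (u j) - f1 (u i)) • (u k - u i) = (f1 (u k) - f1 (u i)) • (u j - u i)) := by
  classical
  obtain ⟨f0, hf0⟩ := Module.exists_dual_forall_apply_ne_zero (K := ℝ)
    (fun i : {i // i ∈ I} => v i.1) (fun i => hv i.1 i.2)
  set u : ι → V := fun i => (f0 (v i))⁻¹ • v i with hu
  obtain ⟨f1, hf1⟩ := Module.exists_dual_forall_apply_ne_zero (K := ℝ)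
    (fun p : {p : {i // i ∈ I} × {i // i ∈ I} // u p.1.1 ≠ u p.2.1} => u p.1.1.1 - u p.1.2.1)
    (fun p => sub_ne_zero.mpr p.2)
  obtain ⟨f2, hf2⟩ := Module.exists_dual_forall_apply_ne_zero (K := ℝ)
    (fun p : {p : {i // i ∈ I} × {i // i ∈ I} × {i // i ∈ I} //
        (f1 (u p.2.1.1) - f1 (u p.1.1)) • (u p.2.2.1 - u p.1.1) -
          (f1 (u p.2.2.1) - f1 (u p.1.1)) • (u p.2.1.1 - u p.1.1) ≠ 0} =>
        (f1 (u p.1.2.1.1) - f1 (u p.1.1.1)) • (u p.1.2.2.1 - u p.1.1.1) -
          (f1 (u p.1.2.2.1) - f1 (u p.1.1.1)) • (u p.1.2.1.1 - u p.1.1.1))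
    (fun p => p.2)
  refine ⟨u, f0, f1, f2, ?_, ?_, ?_, ?_⟩
  · intro i hi
    have := hf0 ⟨i, hi⟩
    simp only [hu, map_smul, smul_eq_mul]
    exact inv_mul_cancel₀ this
  · intro i hi
    have := hf0 ⟨i, hi⟩
    refine ⟨f0 (v i), this, ?_⟩
    simp only [hu]
    rw [smul_smul, mul_inv_cancel₀ this, one_smul]
  · intro i hi j hj hij
    have := hf1 ⟨(⟨i, hi⟩, ⟨j, hj⟩), hij⟩
    simp only [map_sub] at this
    exact sub_ne_zero.mp this
  · intro i hi j hj k hk h
    by_contra hne
    have := hf2 ⟨(⟨i, hi⟩, ⟨j, hj⟩, ⟨k, hk⟩), sub_ne_zero.mpr hne⟩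
    apply this
    simp only [map_sub, map_smul, smul_eq_mul]
    linarith

open scoped Classical in
/-- linear form of Szemeredi-Trotter -/
theorem linearST {V ι : Type} [AddCommGroup V] [Module ℝ V]
    (I : Finset ι) (v : ι → V) (m κ Λ : ℝ)
    (hv : ∀ i ∈ I, v i ≠ 0) (hm : ∀ i ∈ I, mass I v (Submodule.span ℝ {v i}) ≤ m) (hm0 : 0 < m)
    (Z : Finset (Submodule ℝ V))
    (hZ : ∀ A ∈ Z, Module.finrank ℝ A = 2 ∧ κ ≤ mass I v A)
    (hΛ : 12 * Real.log (I.card + 1) + 1 ≤ Λ) (hκ : 64 * m * Λ ≤ κ) :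
    (Z.card : ℝ) ≤ 2 ^ 12 * Λ ^ 2 * (m * (I.card:ℝ) ^ 2 / κ ^ 3) + 2 * (I.card / κ) := by
  have hlog : 0 ≤ Real.log ((I.card : ℝ) + 1) := Real.log_nonneg (by
    have : (0:ℝ) ≤ I.card := by positivity
    linarith)
  have hΛ1 : 1 ≤ Λ := by linarith
  have hmκ : m < κ := by nlinarith
  obtain ⟨u, f0, f1, f2, hu0, huv, hf1, hf2⟩ := exists_coords I v hv
  set pt : ι → ℝ × ℝ := fun i => (f1 (u i), f2 (u i)) with hpt
  -- membership
  have hmem : ∀ A : Submodule ℝ V, ∀ i ∈ I, (v i ∈ A ↔ u i ∈ A) := by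
    intro A i hi
    obtain ⟨c, hc, hcv⟩ := huv i hi
    rw [hcv]
    exact Submodule.smul_mem_iff A hc
  -- two independent vectors in each A
  have hpair : ∀ A ∈ Z, ∃ i ∈ I, ∃ j ∈ I, v i ∈ A ∧ v j ∈ A ∧ u i ≠ u j := by
    intro A hA
    have hpos : 0 < mass I v A := lt_of_lt_of_le (lt_trans hm0 hmκ) (hZ A hA).2
    unfold mass at hpos
    have hpos' : 0 < (I.filter (fun i => v i ∈ A)).card := by exact_mod_cast hpos
    obtain ⟨i, hi⟩ := Finset.card_pos.mp hpos'
    rw [mem_filter] at hi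
    by_contra hcon
    push Not at hcon
    have h1 : mass I v A ≤ mass I v (Submodule.span ℝ {v i}) := by
      unfold mass
      have h2 : I.filter (fun i => v i ∈ A) ⊆ I.filter (fun j => v j ∈ Submodule.span ℝ {v i}) := by
        intro j hj
        rw [mem_filter] at hj ⊢
        refine ⟨hj.1, ?_⟩
        have h3 := hcon i hi.1 j hj.1 hi.2 hj.2
        obtain ⟨c, hc, hcv⟩ := huv j hj.1
        obtain ⟨c', hc', hcv'⟩ := huv i hi.1
        rw [hcv, ← h3, Submodule.mem_span_singleton]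
        refine ⟨c * c'⁻¹, ?_⟩
        rw [hcv', smul_smul, mul_assoc, inv_mul_cancel₀ hc', mul_one]
      exact_mod_cast card_le_card h2
    have h2 := hm i hi.1
    have h3 := (hZ A hA).2
    linarith
  have hκ0 : 0 < κ := lt_trans hm0 hmκ
  rcases Z.eq_empty_or_nonempty with hZe | ⟨A₀, hA₀⟩
  · rw [hZe, card_empty]
    push_cast
    positivity
  obtain ⟨i₀, _⟩ := hpair A₀ hA₀
  have : Nonempty ι := ⟨i₀⟩
  choose! ii hii jj hjj hiA hjA hne using hpair
  set ln : Submodule ℝ V → ℝ × ℝ := fun A =>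
    ((f2 (u (jj A)) - f2 (u (ii A))) / (f1 (u (jj A)) - f1 (u (ii A))),
      f2 (u (ii A)) - (f2 (u (jj A)) - f2 (u (ii A))) / (f1 (u (jj A)) - f1 (u (ii A))) *
        f1 (u (ii A))) with hln
  have hx : ∀ A ∈ Z, f1 (u (jj A)) - f1 (u (ii A)) ≠ 0 := by
    intro A hA
    exact sub_ne_zero.mpr (hf1 _ (hjj A hA) _ (hii A hA) (hne A hA).symm)
  -- incidence characterisation
  have honl : ∀ A ∈ Z, ∀ k : ι, (Onl (ln A) (pt k) ↔
      (f2 (u k) - f2 (u (ii A))) * (f1 (u (jj A)) - f1 (u (ii A)))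
        = (f2 (u (jj A)) - f2 (u (ii A))) * (f1 (u k) - f1 (u (ii A)))) := by
    intro A hA k
    have h := hx A hA
    unfold Onl
    simp only [hln, hpt]
    constructor
    · intro h2
      rw [h2]; field_simp; ring
    · intro h2
      field_simp
      linarith
  -- span
  have hspan : ∀ A ∈ Z, Submodule.span ℝ {u (ii A), u (jj A)} = A := by
    intro A hA
    have hle : Submodule.span ℝ {u (ii A), u (jj A)} ≤ A := by
      rw [Submodule.span_le]
      intro w hw
      simp only [Set.mem_insert_iff, Set.mem_singleton_iff] at hw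
      rcases hw with rfl | rfl
      · exact (hmem A _ (hii A hA)).mp (hiA A hA)
      · exact (hmem A _ (hjj A hA)).mp (hjA A hA)
    have hfin : FiniteDimensional ℝ A := by
      apply Module.finite_of_finrank_pos
      rw [(hZ A hA).1]; norm_num
    apply Submodule.eq_of_le_of_finrank_le hle
    rw [(hZ A hA).1]
    have hli : LinearIndependent ℝ ![u (ii A), u (jj A)] := by
      rw [LinearIndependent.pair_iff]
      intro s t hst
      have h1 := congrArg f0 hst
      simp only [map_add, map_smul, smul_eq_mul, map_zero, hu0 _ (hii A hA), hu0 _ (hjj A hA),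
        mul_one] at h1
      have h2 := congrArg f1 hst
      simp only [map_add, map_smul, smul_eq_mul, map_zero] at h2
      have h3 : t * (f1 (u (jj A)) - f1 (u (ii A))) = 0 := by
        have : s = -t := by linarith
        rw [this] at h2
        linarith
      have h4 : t = 0 := by
        rcases mul_eq_zero.mp h3 with h | h
        · exact h
        · exact absurd h (hx A hA)
      exact ⟨by linarith, h4⟩
    have h5 := finrank_span_eq_card hli
    rw [Matrix.range_cons, Matrix.range_cons, Matrix.range_empty, Set.union_empty] at h5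
    rw [Fintype.card_fin] at h5
    have h6 : ({u (ii A)} ∪ {u (jj A)} : Set V) = {u (ii A), u (jj A)} := rfl
    rw [h6] at h5
    rw [h5]
  -- vectors of A lie on the line
  have hon : ∀ A ∈ Z, ∀ k ∈ I, v k ∈ A → Onl (ln A) (pt k) := by
    intro A hA k hk hkA
    rw [honl A hA k]
    have h1 : u k ∈ Submodule.span ℝ {u (ii A), u (jj A)} := by
      rw [hspan A hA]; exact (hmem A k hk).mp hkA
    rw [Submodule.mem_span_pair] at h1
    obtain ⟨a, b, hab⟩ := h1
    have h2 := congrArg f0 hab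
    simp only [map_add, map_smul, smul_eq_mul, hu0 _ (hii A hA), hu0 _ (hjj A hA), hu0 _ hk,
      mul_one] at h2
    have h3 := congrArg f1 hab
    have h4 := congrArg f2 hab
    simp only [map_add, map_smul, smul_eq_mul] at h3 h4
    rw [← h3, ← h4]
    have h5 : a = 1 - b := by linarith
    rw [h5]; ring
  have honback : ∀ A ∈ Z, ∀ k ∈ I, Onl (ln A) (pt k) → u k ∈ A := by
    intro A hA k hk h
    rw [honl A hA k] at h
    have h2 := hf2 _ (hii A hA) _ (hjj A hA) k hk h
    have h3 := hx A hA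
    have h4 : u k = u (ii A) + ((f1 (u (jj A)) - f1 (u (ii A)))⁻¹ * (f1 (u k) - f1 (u (ii A)))) •
        (u (jj A) - u (ii A)) := by
      rw [mul_smul, ← h2, smul_smul, inv_mul_cancel₀ h3, one_smul]
      abel
    rw [h4]
    apply A.add_mem ((hmem A _ (hii A hA)).mp (hiA A hA))
    apply A.smul_mem
    exact A.sub_mem ((hmem A _ (hjj A hA)).mp (hjA A hA)) ((hmem A _ (hii A hA)).mp (hiA A hA))
  have hinj : Set.InjOn ln (Z : Set (Submodule ℝ V)) := by
    intro A hA A' hA' h
    have hle : ∀ A ∈ Z, ∀ A' ∈ Z, ln A = ln A' → A ≤ A' := by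
      intro A hA A' hA' h
      rw [← hspan A hA, Submodule.span_le]
      intro w hw
      simp only [Set.mem_insert_iff, Set.mem_singleton_iff] at hw
      rcases hw with rfl | rfl
      · apply honback A' hA' _ (hii A hA)
        rw [← h]
        exact hon A hA _ (hii A hA) (hiA A hA)
      · apply honback A' hA' _ (hjj A hA)
        rw [← h]
        exact hon A hA _ (hjj A hA) (hjA A hA)
    exact le_antisymm (hle A hA A' hA' h) (hle A' hA' A hA h.symm)
  -- set up planarST
  set L := Z.image ln with hL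
  have hLcard : L.card = Z.card := Finset.card_image_of_injOn hinj
  set Q := I.image pt with hQ
  set μ : ℝ × ℝ → ℝ := fun z => ((I.filter (fun i => pt i = z)).card : ℝ) with hμdef
  have hμ0 : ∀ z ∈ Q, 0 ≤ μ z := by
    intro z _; simp only [hμdef]; positivity
  have hμm : ∀ z ∈ Q, μ z ≤ m := by
    intro z hz
    rw [hQ, mem_image] at hz
    obtain ⟨i, hi, rfl⟩ := hz
    refine le_trans ?_ (hm i hi)
    simp only [hμdef]
    unfold mass
    have h2 : I.filter (fun j => pt j = pt i) ⊆ I.filter (fun j => v j ∈ Submodule.span ℝ {v i}) := by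
      intro j hj
      rw [mem_filter] at hj ⊢
      refine ⟨hj.1, ?_⟩
      have h3 : u j = u i := by
        by_contra hne
        apply hf1 j hj.1 i hi hne
        have := hj.2
        simp only [hpt, Prod.mk.injEq] at this
        exact this.1
      obtain ⟨c, hc, hcv⟩ := huv j hj.1
      obtain ⟨c', hc', hcv'⟩ := huv i hi
      rw [hcv, h3, Submodule.mem_span_singleton]
      refine ⟨c * c'⁻¹, ?_⟩
      rw [hcv', smul_smul, mul_assoc, inv_mul_cancel₀ hc', mul_one]
    exact_mod_cast card_le_card h2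
  have hsumfib : ∀ p : ℝ × ℝ → Prop, ∑ z ∈ Q with p z, μ z = ((I.filter (fun i => p (pt i))).card : ℝ) := by
    intro p
    have h1 : (I.filter (fun i => p (pt i))).card
        = ∑ z ∈ Q.filter p, ((I.filter (fun i => p (pt i))).filter (fun i => pt i = z)).card := by
      apply Finset.card_eq_sum_card_fiberwise
      intro i hi
      have := mem_filter.mp hi
      rw [mem_coe, mem_filter]
      exact ⟨mem_image_of_mem pt this.1, this.2⟩
    rw [h1]
    push_cast
    apply Finset.sum_congr rfl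
    intro z hz
    have hz2 := (mem_filter.mp hz).2
    simp only [hμdef]
    congr 2
    ext i
    simp only [mem_filter]
    constructor
    · rintro ⟨h3, h4⟩
      exact ⟨⟨h3, by rw [h4]; exact hz2⟩, h4⟩
    · rintro ⟨⟨h3, _⟩, h4⟩
      exact ⟨h3, h4⟩
  have hM : ∑ z ∈ Q, μ z ≤ (I.card : ℝ) := by
    have := hsumfib (fun _ => True)
    simp only [Finset.filter_true] at this
    rw [this]
  have hκ' : ∀ l ∈ L, κ ≤ wt Q μ l := by
    intro l hl
    rw [hL, mem_image] at hl
    obtain ⟨A, hA, rfl⟩ := hl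
    refine le_trans (hZ A hA).2 ?_
    unfold wt
    rw [hsumfib (fun z => Onl (ln A) z)]
    unfold mass
    have h2 : I.filter (fun i => v i ∈ A) ⊆ I.filter (fun i => Onl (ln A) (pt i)) := by
      intro i hi
      rw [mem_filter] at hi ⊢
      exact ⟨hi.1, hon A hA i hi.1 hi.2⟩
    exact_mod_cast card_le_card h2
  -- number of subspaces
  have hZcard : Z.card ≤ I.card ^ 2 := by
    have h1 : Z.card ≤ (I ×ˢ I).card := by
      apply Finset.card_le_card_of_injOn (fun A => (ii A, jj A))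
      · intro A hA
        rw [mem_coe, mem_product]
        exact ⟨hii A hA, hjj A hA⟩
      · intro A hA A' hA' h
        simp only [Prod.mk.injEq] at h
        rw [← hspan A hA, ← hspan A' hA', h.1, h.2]
    rw [card_product] at h1
    rw [pow_two]; exact h1
  have hΛ' : 6 * Real.log (L.card + 1) + 1 ≤ Λ := by
    refine le_trans ?_ hΛ
    rw [hLcard]
    have h1 : Real.log ((Z.card : ℝ) + 1) ≤ 2 * Real.log ((I.card:ℝ) + 1) := by
      have h2 : (2:ℝ) * Real.log ((I.card:ℝ) + 1) = Real.log (((I.card:ℝ) + 1) ^ 2) := by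
        rw [Real.log_pow]; norm_num
      rw [h2]
      apply Real.log_le_log (by positivity)
      have h3 : (Z.card : ℝ) ≤ (I.card:ℝ) ^ 2 := by exact_mod_cast hZcard
      have h4 : (0:ℝ) ≤ I.card := by positivity
      nlinarith
    linarith
  have := planarST Q L μ m (I.card : ℝ) κ Λ hμ0 hμm hm0 hM hκ' hΛ' hκ
  rw [hLcard] at this
  exact this

end Vale.Agent.P054
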