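import Mathlib.Algebra.GroupWithZero.Action.Pointwise.Finset
import Mathlib.Algebra.Module.Submodule.Union
import Mathlib.Algebra.Module.Torsion.Prod
import Mathlib.Algebra.Order.Archimedean.Real.Hom
import Mathlib.Algebra.Order.Chebyshev
import Mathlib.Algebra.Order.Quantale
import Mathlib.Algebra.Order.Ring.Star
import Mathlib.Algebra.Order.Star.Real
import Mathlib.Algebra.Ring.Action.Pointwise.Finset
import Mathlib.Algebra.Ring.IsFormallyReal
import Mathlib.Analysis.CStarAlgebra.Classes
import Mathlib.Analysis.Complex.ExponentialBounds
import Mathlib.Analysis.InnerProductSpace.Calculus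
import Mathlib.Analysis.InnerProductSpace.Dual
import Mathlib.Analysis.InnerProductSpace.ProdL2
import Mathlib.Analysis.SpecialFunctions.Trigonometric.Deriv
import Mathlib.Combinatorics.Additive.Energy
import Mathlib.Combinatorics.Additive.PluenneckeRuzsa
import Mathlib.Combinatorics.Pigeonhole
import Mathlib.Computability.Reduce
import Mathlib.Data.Int.Star
import Mathlib.Data.Rat.Star
import Mathlib.Data.Set.Card.Arithmetic
import Mathlib.LinearAlgebra.Complex.FiniteDimensional
import Mathlib.RingTheory.Etale.Weakly
import Mathlib.RingTheory.Flat.TorsionFree
import Mathlib.RingTheory.PicardGroup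
import Mathlib.RingTheory.SimpleRing.Principal
import Mathlib.RingTheory.TotallySplit
import Mathlib.Tactic
import Mathlib.Topology.Algebra.ProperAction.Basic
import Mathlib.Topology.Baire.LocallyCompactRegular
import Mathlib.Topology.MetricSpace.HausdorffDimension
import Mathlib.Topology.UniformSpace.Uniformizable

/-! The part of Mathlib that the development of this folder uses. -/
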